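import Claimed.Agent.R282.Rep.K.Stable

/-!
# Row 282, Rep/K : the presentation of `V(M)` -- GLUE (helper103), no sorry of its own

Route: see the header of `K/FDefs.lean`.  Leaves: `K/Free1`, `K/Free2`, `K/Inter`, `K/Poly`, `K/Stable`.
-/

set_option autoImplicit false

namespace Claimed.Agent.R282

open Claims.C0456 Matrix

variable {n : ℕ}
variable {ι ι' ι₁ ι₂ ι₃ : Type} [Fintype ι] [DecidableEq ι] [Fintype ι'] [DecidableEq ι']
  [Fintype ι₁] [DecidableEq ι₁] [Fintype ι₂] [DecidableEq ι₂] [Fintype ι₃] [DecidableEq ι₃]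

/-- the Casimir identity modulo the Serre ideal, by polynomial continuation from the stable range -/
theorem cas_identity (hn : 2 ≤ n) (M : Fin n → ℤ) (hM : IsDominantWeight2 M)
    (G : (Fin n → ℂ) → FA n →ₗ[ℂ] FA n)
    (hG1 : ∀ (c : Fin n → ℂ) (a : FA n), PolyIn fun t : ℂ => G (fun i => c i + t) a)
    (hG3 : ∀ (ι : Type) [Fintype ι] [DecidableEq ι] (R : StarRep Ty.D n ι) (v : ι → ℂ) (lam : Vec n),
      IsHW R v lam → ∀ c : Fin n → ℂ, (∀ k, c k = ((dot lam (simpleRD hn k).vec : ℝ) : ℂ)) →
      ∀ (d : Fin n → ℕ) (a : FA n), a ∈ degSpan d →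
        R.toLin.free hn (G c a) v = casqD c d • R.toLin.free hn a v)
    (d : Fin n → ℕ) (a : FA n) (ha : a ∈ degSpan d) :
    casqD (fun i => (cwt M i : ℂ)) d • a - G (fun i => (cwt M i : ℂ)) a ∈ serreSpan ℂ n := by
  set c : Fin n → ℂ := fun i => (cwt M i : ℂ) with hcdef
  let g : ℂ → FA n := fun t => casqD (fun i => c i + t) d • a - G (fun i => c i + t) a
  have hg : PolyIn g := by
    apply polyIn_sub
    · have e : (fun t : ℂ => casqD (fun i => c i + t) d • a) =
          fun t => (casqD c d + t * (2 * ∑ i, (d i : ℂ))) • a := by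
        funext t; rw [casqD_shift]
      rw [e]
      apply polyIn_smul _ _ _ (polyIn_const a)
      apply polyIn_add _ _ (polyIn_const _)
      have := polyIn_id_smul (fun _ : ℂ => (2 * ∑ i, (d i : ℂ))) (polyIn_const _)
      simpa [smul_eq_mul] using this
    · exact hG1 c a
  obtain ⟨D, hD⟩ := polyIn_lenSpan g hg
  obtain ⟨t₀, ht₀⟩ := stable_faithful hn M hM D
  have key : ∀ t : ℕ, t₀ ≤ t → g (t : ℂ) ∈ serreSpan ℂ n := by
    intro t ht
    obtain ⟨hdom, _⟩ := cwt_add_rho hn M hM t ⟨0, by omega⟩
    obtain ⟨m, R, v, hv⟩ := rep_exists (M + t • rho2 n) hdom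
    apply ht₀ t ht (Fin m) R v hv _ (hD _)
    have hc : ∀ k, c k + (t : ℂ) =
        ((dot (halfV (M + t • rho2 n)) (simpleRD hn k).vec : ℝ) : ℂ) := by
      intro k
      rw [cwt_spec hn _ hdom k, (cwt_add_rho hn M hM t k).2]
      push_cast
      rfl
    show R.toLin.free hn (casqD _ d • a - G _ a) v = 0
    rw [map_sub, map_smul, LinearMap.sub_apply, LinearMap.smul_apply,
      hG3 (Fin m) R v _ hv _ hc d a ha, sub_self]
  have h0 := polyIn_mem g hg _ t₀ key 0
  simpa [g] using h0

/-- the presentation in a fixed degree -/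
theorem present_deg (hn : 2 ≤ n) (M : Fin n → ℤ) (R : StarRep Ty.D n ι) (v : ι → ℂ)
    (h : IsHW R v (halfV M)) :
    ∀ (D : ℕ) (d : Fin n → ℕ), ∑ i, d i = D → ∀ a ∈ degSpan d, R.toLin.free hn a v = 0 →
      a ∈ presI (cwt M) := by
  obtain ⟨L, hL, hLM⟩ := rep_hw_dominant hn R v _ h
  have hM : IsDominantWeight2 M := by rw [halfV_injective hLM]; exact hL
  obtain ⟨G, hG1, hG2, hG3⟩ := cas_free hn
  set b := cwt M with hb
  set c : Fin n → ℂ := fun i => (b i : ℂ) with hcdef
  have hc : ∀ k, c k = ((dot (halfV M) (simpleRD hn k).vec : ℝ) : ℂ) := by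
    intro k
    rw [cwt_spec hn M hM k]
    simp [c, b]
  intro D
  induction D using Nat.strong_induction_on with
  | _ D ih =>
    intro d hd a ha h0
    by_contra hna
    by_cases hd0 : d = 0
    · subst hd0
      obtain ⟨z, rfl⟩ := degSpan_zero a ha
      have hz : z • v = 0 := by simpa using h0
      rcases smul_eq_zero.1 hz with hz | hv
      · apply hna; rw [hz, zero_smul]; exact zero_mem _
      · exact h.ne hv
    · have hE : ∀ k, prE c k a ∈ presI b := by
        intro k
        obtain ⟨h1, h2⟩ := prE_deg c k d a ha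
        by_cases hk : d k = 0
        · rw [h2 hk]; exact zero_mem _
        · refine ih (∑ i, (d - Pi.single k 1 : Fin n → ℕ) i) ?_ (d - Pi.single k 1) rfl (prE c k a) h1 ?_
          · rw [← hd]
            apply Finset.sum_lt_sum
            · intro i _
              simp only [Pi.sub_apply]
              exact Nat.sub_le _ _
            · refine ⟨k, Finset.mem_univ _, ?_⟩
              simp only [Pi.sub_apply, Pi.single_eq_same]
              omega
          · rw [free_prE hn R v _ h c hc k a, h0, map_zero, neg_zero]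
      have hGa : G c a ∈ presI b :=
        hG2 c (presI b) (fun k a ha => prE_presI hn b k a ha)
          (fun u a ha => presI_mul_left b u a ha) a hE
      have hid := cas_identity hn M hM G hG1 hG3 d a ha
      have hq : casqD c d ≠ 0 :=
        casqD_ne b d hd0 (fun i => presI_dominant hn b i d a ha hna (hE i))
      have h4 : casqD c d • a ∈ presI b := by
        have h3 : casqD c d • a - G c a ∈ presI b := (le_sup_left : serreSpan ℂ n ≤ presI b) hid
        have := add_mem h3 hGa
        simpa using this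
      exact hna ((Submodule.smul_mem_iff _ hq).1 h4)

/-- **presentation** `V(M) = F / (Serre + ∑ F f_i^(M_i+1))` -/
theorem rep_present (hn : 2 ≤ n) (M : Fin n → ℤ) (R : StarRep Ty.D n ι₁) (v : ι₁ → ℂ)
    (h : IsHW R v (halfV M)) (a : FreeAlgebra ℂ (Fin n)) :
    R.toLin.free hn a v = 0 ↔
      a ∈ Submodule.span ℂ {x | ∃ u w i j, x = u * serreElt ℂ n i j * w} ⊔
        Submodule.span ℂ {x | ∃ u i, x = u * fgen ℂ n i ^ (cwt M i + 1)} := by
  constructor
  · intro h0
    obtain ⟨F, hF⟩ := sum_degPart a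
    have hmem : a ∈ presI (cwt M) := by
      rw [hF]
      apply Submodule.sum_mem
      intro d _
      exact present_deg hn M R v h _ d rfl _ (degPart_mem d a)
        (free_degPart_zero hn R v (halfV M) ((isHW_iff R v _).1 h).2.1 a h0 d)
    exact hmem
  · intro ha
    exact free_presI hn R v M h a ha

end Claimed.Agent.R282
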