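import Claimed.Agent.R282.Rep.K.Coeff
import Claimed.Agent.R282.Rep.K.Present
import Claimed.Agent.R282.K2.E.Rings

/-!
# Row 282, Rep/K, LEAF L-K-DQC (`rep_dqC`, ~900 lines) : the double quotient (statements by helper103)

`dqne_baseChange`: PROVED (helper51, `K2/E/Rings.lean`: `k2e_dqne_ext`; the same file has `k2eProj`, `k2eProj_mem_dqIdeal` = the ideal is homogeneous, `k2eBasis` = basis of words).  Old plan:

`dqne_baseChange`: `FreeAlgebra R X` has the basis of words (`K2/FreeKit.lean`: `fk_basis`, `wordFun`, `fk_two_sided`, ..); `dqIdeal R` is spanned by (word) * (Serre) * (word), `f_i^(a+1)` * word, word * `f_i^(b+1)`: vectors with INTEGER coordinates in the basis of words, the same over `ℚ` and `ℂ`.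
 (⇐ i.e. `ℂ → ℚ`): the ring homomorphism `FreeAlgebra ℚ → FreeAlgebra ℂ` (`FreeAlgebra.lift ℚ` into the `ℚ`-algebra `FreeAlgebra ℂ`) maps words to words and `dqIdeal ℚ` into `dqIdeal ℂ`.
 (⇒): if the word `w ∉ dqIdeal ℚ` take a `ℚ`-linear functional `ψ` killing `dqIdeal ℚ` with `ψ w = 1`; `ψ_ℂ := wordFun ℂ n (fun u => (ψ (wordMon ℚ n u) : ℂ))` kills the generators of `dqIdeal ℂ` (reduce to words by `fk_two_sided`, `fk_left`, `fk_right`; on integer combinations of words `ψ_ℂ` is the cast of `ψ`).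
`rep_dqC`: models `(R₁,v₁)`, `(R₂,v₂)`, `(R₃,v₃)` from `rep_exists`; `a = cwt L`, `b = cwt M`.  `ev x = R₂.toLin.free hn x v₂`.
 (⇒) from `Occ` and `rep_unique_perp` (or `rep_occ_iff`) get an equivariant `T` for THESE models, not vanishing on the cyclic modules; `φ b = ⟨v₃, T v₁ b⟩` is `≠ 0` on `cyc v₂` (`rep_coeff_nec` (3)), supported at the weight `(X-L)/2` ((1)); `cyc v₂` is spanned by the `ev (word)` (`cyc_words`, `fk_span`); a word `w` with `φ (ev w) ≠ 0` has degree `d` with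
     `M/2 - ∑ d_i α_i = (X-L)/2` (`word_wt`, `halfV_degVec`, `halfV_injective`); the functional `x ↦ φ (ev x)` kills `dqIdeal ℂ n a b` (`free_presI`, `free_serreSpan`, `rep_coeff_nec` (2)), so `wordMon w ∉ dqIdeal`.
 (⇐) a word `w` of degree `d`, `wordMon w ∉ dqIdeal`: a linear functional `ψ₀` killing `dqIdeal` with `ψ₀ (wordMon w) ≠ 0` (`Submodule.exists_le_ker_of_notMem`); `ψ = ψ₀ ∘ degPart d` still kills `dqIdeal` (`degPart_dqIdeal`) and `ψ (wordMon w) = ψ₀ (wordMon w)`.  By `rep_present` `ker ev = presI b ≤ dqIdeal ≤ ker ψ`, so `ψ = φ ∘ ev` for a linear `φ` on `ι₂ → ℂ` (`LinearMap.exists_extend`..).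
     `hsupp`: `b' ∈ cyc v₂ ⊓ wt χ`: `wt_words` / `wt_words_none`: `b' = ev x`, `x ∈ degSpan d'`, `d' ≠ d` (`degVecR_injective`), `ψ x = 0` (`degPart_of_mem_ne`).  `hkill`: `φ (f_i^(a_i+1) ev x) = ψ (f_i^(a_i+1) x) = 0`.  `rep_coeff` gives `T`; `Occ` with `a = v₁`, `b = ev w`, `c = v₃` (`mem_cyc`, `free_mem_cyc`).
-/

set_option autoImplicit false

namespace Claimed.Agent.R282

open Claims.C0456 Matrix

variable {n : ℕ}
variable {ι ι' ι₁ ι₂ ι₃ : Type} [Fintype ι] [DecidableEq ι] [Fintype ι'] [DecidableEq ι']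
  [Fintype ι₁] [DecidableEq ι₁] [Fintype ι₂] [DecidableEq ι₂] [Fintype ι₃] [DecidableEq ι₃]

/-- base change of the double quotient -/
theorem dqne_baseChange (a b d : Fin n → ℕ) : DQne ℚ n a b d ↔ DQne ℂ n a b d :=
  k2e_dqne_ext ℂ n a b d

/-! ## `rep_dqC` -/

/-- the weight equation -/
theorem kdq_weight (hn : 2 ≤ n) (L M X : Fin n → ℤ) (d : Fin n → ℕ) :
    halfV M - ∑ i, (d i : ℝ) • (simpleRD hn i).vec = halfV (X - L) ↔
      L + M - X = 2 • ∑ i, d i • simpleRootD n i := by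
  rw [← halfV_degVec hn d, ← halfV_sub]
  constructor
  · intro h
    have h' := halfV_injective h
    unfold degVec at h'
    rw [← sub_eq_zero] at h' ⊢
    rw [← h']; abel
  · intro h
    congr 1
    unfold degVec
    rw [← h]; abel

theorem kdq_fwd (hn : 2 ≤ n) (L M X : Fin n → ℤ) (h : Occ L M X) :
    ∃ d : Fin n → ℕ, L + M - X = 2 • ∑ i, d i • simpleRootD n i ∧
      DQne ℂ n (cwt L) (cwt M) d := by
  obtain ⟨m₁, m₂, m₃, R₁, R₂, R₃, T, v₁, v₂, v₃, hT, h₁, h₂, h₃, a, ha, b, hb, c, hc, hne⟩ := h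
  obtain ⟨hn1, hn2, hn3⟩ := rep_coeff_nec hn L M X R₁ R₂ R₃ v₁ v₂ v₃ h₁ h₂ h₃ T hT
  have hv₂w : v₂ ∈ R₂.wt (halfV M) := ((isHW_iff R₂ _ _).mp h₂).2.1
  -- a word with nonzero coefficient
  have hex : ∃ w : List (Fin n), star v₃ ⬝ᵥ T v₁ (R₂.toLin.free hn (wordMon ℂ n w) v₂) ≠ 0 := by
    by_contra hcon
    push Not at hcon
    apply hne
    apply hn3 _ a ha b hb c hc
    intro b' hb'
    obtain ⟨x, rfl⟩ := cyc_words hn R₂ v₂ _ h₂ b' hb'
    induction x using fk_induction with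
    | hw w => exact hcon w
    | h0 => simp
    | hadd x y hx hy =>
      rw [map_add, LinearMap.add_apply, map_add, dotProduct_add,
        hx (free_mem_cyc hn R₂ v₂ x), hy (free_mem_cyc hn R₂ v₂ y), add_zero]
    | hsmul r x hx =>
      rw [map_smul, LinearMap.smul_apply, map_smul, dotProduct_smul,
        hx (free_mem_cyc hn R₂ v₂ x), smul_zero]
  obtain ⟨w, hw⟩ := hex
  refine ⟨fun i => w.count i, ?_, w, fun i => rfl, ?_⟩
  · rw [← kdq_weight hn]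
    by_contra hχ
    exact hw (hn1 _ hχ _ (word_wt hn R₂ v₂ _ hv₂w w))
  · intro hmem
    apply hw
    have hle : dqIdeal ℂ n (cwt L) (cwt M) ≤ LinearMap.ker
        ((dotProductBilin ℂ ℂ (star v₃)) ∘ₗ (T v₁) ∘ₗ (LinearMap.applyₗ v₂) ∘ₗ
          (R₂.toLin.free hn).toLinearMap) := by
      unfold dqIdeal
      refine sup_le (sup_le ?_ ?_) ?_
      · rw [Submodule.span_le]
        rintro _ ⟨u, v, i, j, rfl⟩
        show star v₃ ⬝ᵥ T v₁ (R₂.toLin.free hn (u * serreElt ℂ n i j * v) v₂) = 0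
        rw [kco_free_mul, kco_free_mul, free_serre hn R₂ i j]
        simp
      · rw [Submodule.span_le]
        rintro _ ⟨u, i, rfl⟩
        show star v₃ ⬝ᵥ T v₁ (R₂.toLin.free hn (fgen ℂ n i ^ (cwt L i + 1) * u) v₂) = 0
        rw [kco_free_mul, kco_free_pow]
        exact hn2 i _
      · rw [Submodule.span_le]
        rintro _ ⟨u, i, rfl⟩
        show star v₃ ⬝ᵥ T v₁ (R₂.toLin.free hn (u * fgen ℂ n i ^ (cwt M i + 1)) v₂) = 0
        rw [kco_free_mul, free_pow_top hn R₂ v₂ M h₂ i]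
        simp
    exact hle hmem

theorem kdq_bwd (hn : 2 ≤ n) (L M X : Fin n → ℤ) (hL : IsDominantWeight2 L)
    (hM : IsDominantWeight2 M) (hX : IsDominantWeight2 X) (d : Fin n → ℕ)
    (hd : L + M - X = 2 • ∑ i, d i • simpleRootD n i) (hdq : DQne ℂ n (cwt L) (cwt M) d) :
    Occ L M X := by
  obtain ⟨w, hwd, hw⟩ := hdq
  obtain ⟨m₁, R₁, v₁, h₁⟩ := rep_exists L hL
  obtain ⟨m₂, R₂, v₂, h₂⟩ := rep_exists M hM
  obtain ⟨m₃, R₃, v₃, h₃⟩ := rep_exists X hX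
  obtain ⟨ψ₀, hψ₀w, hψ₀⟩ := Submodule.exists_le_ker_of_notMem hw
  -- `ψ = ψ₀ ∘ degPart d` kills the double ideal
  have hψ : ∀ x ∈ dqIdeal ℂ n (cwt L) (cwt M), ψ₀ (degPart d x) = 0 := fun x hx =>
    hψ₀ (degPart_dqIdeal _ _ d x hx)
  have hker : ∀ x : FA n, R₂.toLin.free hn x v₂ = 0 → ψ₀ (degPart d x) = 0 := by
    intro x hx
    apply hψ
    have h1 := (rep_present hn M R₂ v₂ h₂ x).mp hx
    have hle : Submodule.span ℂ {x | ∃ u w i j, x = u * serreElt ℂ n i j * w} ⊔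
        Submodule.span ℂ {x | ∃ u i, x = u * fgen ℂ n i ^ (cwt M i + 1)} ≤
        dqIdeal ℂ n (cwt L) (cwt M) := by
      unfold dqIdeal
      exact sup_le (le_sup_of_le_left le_sup_left) le_sup_right
    exact hle h1
  -- the form `φ`
  obtain ⟨P₂, hP₂1, hP₂2, -, -, -⟩ := exists_proj R₂ _ (cyc_inv R₂ v₂)
  have hsec : ∀ j : Fin m₂, ∃ a : FA n, R₂.toLin.free hn a v₂ = P₂ (Pi.single j 1) := fun j =>
    cyc_words hn R₂ v₂ _ h₂ _ (hP₂1 _)
  choose sec hsec using hsec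
  have hsec2 : ∀ y : Fin m₂ → ℂ, R₂.toLin.free hn (∑ j, y j • sec j) v₂ = P₂ y := by
    intro y
    have hy : y = ∑ j, y j • (Pi.single j 1 : Fin m₂ → ℂ) := by
      funext k; simp [Finset.sum_apply, Pi.single_apply]
    conv_rhs => rw [hy]
    simp only [map_sum, map_smul, LinearMap.sum_apply, LinearMap.smul_apply, hsec]
  obtain ⟨φ, hφ⟩ : ∃ φ : (Fin m₂ → ℂ) →ₗ[ℂ] ℂ, ∀ y, φ y = ψ₀ (degPart d (∑ j, y j • sec j)) :=
    ⟨ψ₀ ∘ₗ degPart d ∘ₗ Fintype.linearCombination ℂ sec, fun y => by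
      simp [Fintype.linearCombination_apply]⟩
  have hφev : ∀ x : FA n, φ (R₂.toLin.free hn x v₂) = ψ₀ (degPart d x) := by
    intro x
    rw [hφ]
    set y := R₂.toLin.free hn x v₂ with hy
    have h0 : R₂.toLin.free hn ((∑ j, y j • sec j) - x) v₂ = 0 := by
      rw [map_sub, LinearMap.sub_apply, hsec2, hP₂2 y (free_mem_cyc hn R₂ v₂ x), hy, sub_self]
    have h1 := hker _ h0
    rw [map_sub, map_sub] at h1
    exact sub_eq_zero.mp h1
  have hsupp : ∀ χ : Vec n, χ ≠ halfV (X - L) → ∀ b ∈ R₂.cyc v₂ ⊓ R₂.wt χ, φ b = 0 := by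
    intro χ hχ b hb
    by_cases hex : ∃ d' : Fin n → ℕ, χ = halfV M - ∑ i, (d' i : ℝ) • (simpleRD hn i).vec
    · obtain ⟨d', rfl⟩ := hex
      obtain ⟨x, hx, rfl⟩ := wt_words hn R₂ v₂ _ h₂ d' b hb
      have hdd : d' ≠ d := by
        rintro rfl
        exact hχ ((kdq_weight hn L M X d').mpr hd)
      rw [hφev, degPart_of_mem_ne d d' hdd x hx, map_zero]
    · push Not at hex
      rw [wt_words_none hn R₂ v₂ _ h₂ χ hex b hb, map_zero]
  have hkill : ∀ (i : Fin n), ∀ b ∈ R₂.cyc v₂,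
      φ (((R₂.op (rootVec (simpleRD hn i).neg)) ^ (cwt L i + 1)) b) = 0 := by
    intro i b hb
    obtain ⟨x, rfl⟩ := cyc_words hn R₂ v₂ _ h₂ b hb
    rw [← kco_free_pow, ← kco_free_mul, hφev]
    apply hψ
    unfold dqIdeal
    exact Submodule.mem_sup_left (Submodule.mem_sup_right (Submodule.subset_span ⟨x, i, rfl⟩))
  obtain ⟨T, hT, hTφ⟩ := rep_coeff hn L M X R₁ R₂ R₃ v₁ v₂ v₃ h₁ h₂ h₃ φ hsupp hkill
  refine ⟨m₁, m₂, m₃, R₁, R₂, R₃, T, v₁, v₂, v₃, hT, h₁, h₂, h₃, v₁, mem_cyc R₁ v₁,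
    R₂.toLin.free hn (wordMon ℂ n w) v₂, free_mem_cyc hn R₂ v₂ _, v₃, mem_cyc R₃ v₃, ?_⟩
  rw [hTφ _ (free_mem_cyc hn R₂ v₂ _), hφev, degPart_word, if_pos hwd]
  exact hψ₀w

/-- the double quotient over `ℂ` (from `rep_present`, `rep_coeff`, `rep_coeff_nec`) -/
theorem rep_dqC (hn : 2 ≤ n) (L M X : Fin n → ℤ) (hL : IsDominantWeight2 L) (hM : IsDominantWeight2 M)
    (hX : IsDominantWeight2 X) :
    Occ L M X ↔ ∃ d : Fin n → ℕ, L + M - X = 2 • ∑ i, d i • simpleRootD n i ∧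
      DQne ℂ n (cwt L) (cwt M) d :=
  ⟨kdq_fwd hn L M X, fun ⟨d, hd, hdq⟩ => kdq_bwd hn L M X hL hM hX d hd hdq⟩

end Claimed.Agent.R282
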