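import Claimed.Agent.R282.Rep.K.Present

/-!
# Row 282, Rep/K, LEAVES L-K-NEC (`rep_cartan`, `rep_coeff_nec`, ~600 lines) and L-K-COEFF (`rep_coeff`, ~900 lines) : Cartan products and Lemma 2.3 (statements by helper103)

Notation: `f_i = R.op (rootVec α_i.neg) = R.toLin.free hn (fgen ℂ n i)`, `e_i = R.op (rootVec α_i)`, `f_i = - e_i^*` (`rootVec_conjTranspose`, `op_adjoint`).  Cite everything in `Rep/R/*`, `Rep/K/{Free1,Free2,Inter,Present}` freely.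
`rep_cartan`: `tsub (cyc v₁) (cyc v₂)` is invariant (`rep_inv_tsub`, `cyc_inv`) and contains `tmul v₁ v₂`; `cyc_le`.
`rep_coeff_nec`: (1) `T v₁ b` has weight `Hh/2 + χ` (equivariance for `Hc x`), `v₃` has weight `Hh'/2`, `wt_orth`.
 (2) `T (a, f b) = f T(a,b) - T (f a, b)` and `⟨v₃, f y⟩ = - ⟨e v₃, y⟩ = 0`; so `⟨v₃, T (a, f^k b)⟩ = (-1)^k ⟨v₃, T (f^k a, b)⟩` (induction on `k`, all `a`), and `f_i^(h_i+1) v₁ = 0` (`free_pow_top`).
 (3) Suppose `⟨v₃, T (v₁, b)⟩ = 0` for all `b ∈ cyc v₂`.  Then `⟨v₃, T (a, b)⟩ = 0` for all `a = free w v₁` (induction on the word `w`, same move, `cyc v₂` is invariant), hence for all `a ∈ cyc v₁` (`cyc_words`).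
     The set `Z = {c | ∀ a ∈ cyc v₁, ∀ b ∈ cyc v₂, ⟨c, T a b⟩ = 0}` is a subspace (conjugate-linear in `c`, still a `ℂ`-subspace), invariant (`⟨X c, T a b⟩ = ⟨c, Xᴴ T a b⟩ = ⟨c, T (Xᴴ a) b⟩ + ⟨c, T a (Xᴴ b)⟩`), contains `v₃`; `cyc_le`.
`rep_coeff`: `F = FA n`, `S : F → F` the anti-automorphism with `S f_i = - f_i` : `S a = star (FreeAlgebra.lift ℂ (fun i => - fgen ℂ n i) a)`; `S (a b) = S b * S a`; `S (serreElt i j) = - serreElt i j`; so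
     `S (presI h) ≤ serreSpan ⊔ span {f_i^(h_i+1) * u}`.
 (a) the bilinear map `B₀ (a, b) = φ (free (S a) b)` on `F × (ι₂ → ℂ)` vanishes for `a ∈ presI (cwt Hh)`, `b ∈ cyc v₂` (`free_serreSpan`, `hkill`, `free_mem_inv`); by `rep_present` it vanishes whenever `free a v₁ = 0`.
     So there is a bilinear `B : (ι₁ → ℂ) × (ι₂ → ℂ) → ℂ` with `B (free a v₁, b) = φ (free (S a) b)` for `b ∈ cyc v₂`: factor `a ↦ B₀ (a, P₂ ·)` (`P₂` = projection on `cyc v₂`, `exists_proj`) through the linear map `a ↦ free a v₁` (`LinearMap.exists_extend` / `Submodule.liftQ` + `LinearMap.quotKerEquivRange`), extend from the range to the whole space.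
 (b) `p₀ (i,j) := star (B (δ_i, δ_j))`, so that `star p₀ ⬝ᵥ tmul a b = B (a, b)`.  Let `p` = projection of `p₀` on `Mt = tsub (cyc v₁) (cyc v₂)` (`exists_proj`, self-adjoint): `⟨p, y⟩ = ⟨p₀, y⟩` for `y ∈ Mt`.
 (c) `⟨p, f_i y⟩ = 0` for `y ∈ Mt`: for `y = tmul (free a v₁) b`: `B (free (f_i a) v₁, b) + B (free a v₁, f_i b) = φ (free (S a * (- f_i)) b) + φ (free (S a) (f_i b)) = 0`.  Hence `e_i p ∈ Mt` is orthogonal to `Mt`, `e_i p = 0`, `p ∈ prim` (`prim_of_simple`).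
 (d) `p` has weight `Hh'/2`: decompose `p` in weight components in `Mt` (`wt_components`); a component `p_χ`, `χ ≠ Hh'/2`, is orthogonal to all `tmul (free a v₁) b` with `a ∈ degSpan d`, `b` a weight vector: nonzero pairing needs the total weight `χ`, and then `free (S a) b` has weight `χ - Hh/2 ≠ (Hh' - Hh)/2`, killed by `φ` (`hsupp`).  So `⟨p_χ, p_χ⟩ = ⟨p, p_χ⟩ = 0`.
 (e) if `p = 0` then `φ = 0` on `cyc v₂` (`a = 1`), take `T = 0`.  Otherwise `IsHW (R₁.kron R₂) p (halfV Hh')` (`isHW_iff`); `rep_unique_perp` gives `Ψ` with `Ψ p = v₃`, equivariant, `Ψ = 0` on `orthC (cyc p)`, similitude with constant `κ > 0` on `cyc p`.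
     For all `y`: `⟨v₃, Ψ y⟩ = ⟨Ψ p, Ψ y'⟩ = κ ⟨p, y'⟩ = κ ⟨p, y⟩` (`y'` = component of `y` in `cyc p`).  `T a b := κ⁻¹ • Ψ (tmul a b)` (bilinear, equivariant by `kron_op_tmul`), `⟨v₃, T v₁ b⟩ = ⟨p, tmul v₁ b⟩ = B (v₁, b) = φ b`.
-/

set_option autoImplicit false

namespace Claimed.Agent.R282

open Claims.C0456 Matrix

variable {n : ℕ}
variable {ι ι' ι₁ ι₂ ι₃ : Type} [Fintype ι] [DecidableEq ι] [Fintype ι'] [DecidableEq ι']
  [Fintype ι₁] [DecidableEq ι₁] [Fintype ι₂] [DecidableEq ι₂] [Fintype ι₃] [DecidableEq ι₃]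

/-- an equivariant bilinear map -/
def RepEquivar (R₁ : StarRep Ty.D n ι₁) (R₂ : StarRep Ty.D n ι₂) (R₃ : StarRep Ty.D n ι₃)
    (T : (ι₁ → ℂ) →ₗ[ℂ] (ι₂ → ℂ) →ₗ[ℂ] (ι₃ → ℂ)) : Prop :=
  ∀ X, Ty.D.InG X → ∀ a b, R₃.op X (T a b) = T (R₁.op X a) b + T a (R₂.op X b)

/-- (A3) Cartan product: `cyc (v ⊗ v') ≤ cyc v ⊗ cyc v'` -/
theorem rep_cartan (R₁ : StarRep Ty.D n ι₁) (R₂ : StarRep Ty.D n ι₂) (v₁ : ι₁ → ℂ) (v₂ : ι₂ → ℂ) :
    (R₁.kron R₂).cyc (tmul v₁ v₂) ≤ tsub (R₁.cyc v₁) (R₂.cyc v₂) := by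
  exact cyc_le (R₁.kron R₂) (tmul v₁ v₂) _ (rep_inv_tsub R₁ R₂ _ _ (cyc_inv R₁ v₁) (cyc_inv R₂ v₂))
    (rkr_tmul_mem _ _ v₁ (mem_cyc R₁ v₁) v₂ (mem_cyc R₂ v₂))

/-! ## `rep_coeff`: the antipode of the free algebra -/

/-- the algebra homomorphism `F → Fᵐᵒᵖ`, `f_i ↦ - f_i` -/
noncomputable def kcoSop (n : ℕ) : FA n →ₐ[ℂ] (FA n)ᵐᵒᵖ :=
  FreeAlgebra.lift ℂ fun i : Fin n => MulOpposite.op (- fgen ℂ n i)

/-- the antipode `S (f_{i₁} ⋯ f_{i_k}) = (-1)^k f_{i_k} ⋯ f_{i₁}` -/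
noncomputable def kcoS (n : ℕ) : FA n →ₗ[ℂ] FA n :=
  (MulOpposite.opLinearEquiv ℂ).symm.toLinearMap ∘ₗ (kcoSop n).toLinearMap

theorem kco_eqns_cite : True := by
  have := @kcoSop.eq_1
  have := @kcoS.eq_1
  trivial

theorem kco_S_apply (a : FA n) : kcoS n a = MulOpposite.unop (kcoSop n a) := rfl

theorem kco_S_mul (a b : FA n) : kcoS n (a * b) = kcoS n b * kcoS n a := by
  rw [kco_S_apply, kco_S_apply, kco_S_apply, map_mul, MulOpposite.unop_mul]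

theorem kco_S_one : kcoS n 1 = 1 := by
  rw [kco_S_apply, map_one, MulOpposite.unop_one]

theorem kco_S_fgen (i : Fin n) : kcoS n (fgen ℂ n i) = - fgen ℂ n i := by
  rw [kco_S_apply]
  unfold kcoSop fgen
  rw [FreeAlgebra.lift_ι_apply]
  rfl

theorem kco_S_pow (i : Fin n) (m : ℕ) : kcoS n (fgen ℂ n i ^ m) = (-1 : ℂ) ^ m • fgen ℂ n i ^ m := by
  induction m with
  | zero => simp [kco_S_one]
  | succ m ih =>
    rw [pow_succ (fgen ℂ n i), kco_S_mul, ih, kco_S_fgen, ← pow_succ (fgen ℂ n i),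
      pow_succ' (fgen ℂ n i), pow_succ (-1 : ℂ)]
    simp only [neg_mul, mul_smul_comm, mul_neg, mul_one, neg_smul, smul_neg]

theorem kco_S_serre (i j : Fin n) : kcoS n (serreElt ℂ n i j) = - serreElt ℂ n i j := by
  unfold serreElt
  split_ifs
  · simp only [map_add, map_sub, kco_S_mul, kco_S_fgen, two_mul]
    noncomm_ring
  · simp only [map_sub, kco_S_mul, kco_S_fgen]
    noncomm_ring

theorem kco_S_word (w : List (Fin n)) :
    kcoS n (wordMon ℂ n w) = (-1 : ℂ) ^ w.length • wordMon ℂ n w.reverse := by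
  induction w with
  | nil => simp [wordMon_nil, kco_S_one]
  | cons i w ih =>
    rw [wordMon_cons, kco_S_mul, ih, kco_S_fgen, List.reverse_cons, wordMon_append,
      wordMon_singleton, List.length_cons, pow_succ]
    simp only [mul_neg, smul_mul_assoc, mul_one, neg_smul]

theorem kco_free_mul (hn : 2 ≤ n) (R : StarRep Ty.D n ι) (a b : FA n) (x : ι → ℂ) :
    R.toLin.free hn (a * b) x = R.toLin.free hn a (R.toLin.free hn b x) := by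
  rw [map_mul]; rfl

theorem kco_free_pow (hn : 2 ≤ n) (R : StarRep Ty.D n ι) (i : Fin n) (m : ℕ) :
    R.toLin.free hn (fgen ℂ n i ^ m) = (R.op (rootVec (simpleRD hn i).neg)) ^ m := by
  rw [map_pow]
  congr 1
  exact LinearMap.ext fun x => free_fgen hn R i x

/-- `a ↦ φ (S a · y)` kills the annihilator of `v₁` -/
theorem kco_kill (hn : 2 ≤ n) (Hh : Fin n → ℤ) (R₂ : StarRep Ty.D n ι₂) (S₂ : Submodule ℂ (ι₂ → ℂ))
    (hS₂ : R₂.Inv S₂) (φ : (ι₂ → ℂ) →ₗ[ℂ] ℂ)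
    (hkill : ∀ (i : Fin n), ∀ b ∈ S₂,
      φ (((R₂.op (rootVec (simpleRD hn i).neg)) ^ (cwt Hh i + 1)) b) = 0)
    (a : FA n)
    (ha : a ∈ Submodule.span ℂ {x | ∃ u w i j, x = u * serreElt ℂ n i j * w} ⊔
        Submodule.span ℂ {x | ∃ u i, x = u * fgen ℂ n i ^ (cwt Hh i + 1)})
    (y : ι₂ → ℂ) (hy : y ∈ S₂) : φ (R₂.toLin.free hn (kcoS n a) y) = 0 := by
  have hle : Submodule.span ℂ {x | ∃ u w i j, x = u * serreElt ℂ n i j * w} ⊔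
        Submodule.span ℂ {x | ∃ u i, x = u * fgen ℂ n i ^ (cwt Hh i + 1)} ≤
      LinearMap.ker (φ ∘ₗ (LinearMap.applyₗ y) ∘ₗ (R₂.toLin.free hn).toLinearMap ∘ₗ kcoS n) := by
    apply sup_le
    · rw [Submodule.span_le]
      rintro _ ⟨u, w, i, j, rfl⟩
      show φ (R₂.toLin.free hn (kcoS n (u * serreElt ℂ n i j * w)) y) = 0
      rw [kco_S_mul, kco_S_mul, kco_S_serre, kco_free_mul, kco_free_mul, map_neg,
        free_serre hn R₂ i j]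
      simp
    · rw [Submodule.span_le]
      rintro _ ⟨u, i, rfl⟩
      show φ (R₂.toLin.free hn (kcoS n (u * fgen ℂ n i ^ (cwt Hh i + 1))) y) = 0
      rw [kco_S_mul, kco_S_pow, kco_free_mul, map_smul, kco_free_pow, LinearMap.smul_apply,
        map_smul, hkill i _ (free_mem_inv hn R₂ S₂ hS₂ _ y hy), smul_zero]
  exact hle ha

/-- scalar bilinear forms as vectors of the tensor product -/
theorem kco_form_tmul (B : (ι₁ → ℂ) →ₗ[ℂ] (ι₂ → ℂ) →ₗ[ℂ] ℂ) (a : ι₁ → ℂ) (b : ι₂ → ℂ) :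
    star (fun q : ι₁ × ι₂ => star (B (Pi.single q.1 1) (Pi.single q.2 1))) ⬝ᵥ tmul a b = B a b := by
  have ha : a = ∑ i, a i • (Pi.single i 1 : ι₁ → ℂ) := by
    funext k; simp [Finset.sum_apply, Pi.single_apply]
  have hb : b = ∑ j, b j • (Pi.single j 1 : ι₂ → ℂ) := by
    funext k; simp [Finset.sum_apply, Pi.single_apply]
  conv_rhs => rw [ha, hb]
  simp only [dotProduct, tmul, Fintype.sum_prod_type, map_sum, map_smul, Pi.star_apply, star_star,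
    LinearMap.sum_apply, LinearMap.smul_apply, smul_eq_mul, Finset.mul_sum]
  rw [Finset.sum_comm]
  refine Finset.sum_congr rfl fun j _ => ?_
  refine Finset.sum_congr rfl fun i _ => ?_
  ring

/-- steps (a), (b) -/
theorem kco_exists_p (hn : 2 ≤ n) (Hh : Fin n → ℤ) (R₁ : StarRep Ty.D n ι₁) (R₂ : StarRep Ty.D n ι₂)
    (v₁ : ι₁ → ℂ) (v₂ : ι₂ → ℂ) (h₁ : IsHW R₁ v₁ (halfV Hh)) (φ : (ι₂ → ℂ) →ₗ[ℂ] ℂ)
    (hkill : ∀ (i : Fin n), ∀ b ∈ R₂.cyc v₂,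
      φ (((R₂.op (rootVec (simpleRD hn i).neg)) ^ (cwt Hh i + 1)) b) = 0) :
    ∃ p ∈ tsub (R₁.cyc v₁) (R₂.cyc v₂), ∀ (a : FA n), ∀ b ∈ R₂.cyc v₂,
      star p ⬝ᵥ tmul (R₁.toLin.free hn a v₁) b = φ (R₂.toLin.free hn (kcoS n a) b) := by
  obtain ⟨P₁, hP₁1, hP₁2, -, -, -⟩ := exists_proj R₁ _ (cyc_inv R₁ v₁)
  obtain ⟨P₂, hP₂1, hP₂2, -, -, -⟩ := exists_proj R₂ _ (cyc_inv R₂ v₂)
  obtain ⟨P, hP1, hP2, -, -, hP5⟩ := exists_proj (R₁.kron R₂) _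
    (rep_inv_tsub R₁ R₂ _ _ (cyc_inv R₁ v₁) (cyc_inv R₂ v₂))
  have hsec : ∀ i : ι₁, ∃ a : FA n, R₁.toLin.free hn a v₁ = P₁ (Pi.single i 1) := fun i =>
    cyc_words hn R₁ v₁ _ h₁ _ (hP₁1 _)
  choose sec hsec using hsec
  have hsec2 : ∀ x : ι₁ → ℂ, R₁.toLin.free hn (∑ i, x i • sec i) v₁ = P₁ x := by
    intro x
    have hx : x = ∑ i, x i • (Pi.single i 1 : ι₁ → ℂ) := by
      funext k; simp [Finset.sum_apply, Pi.single_apply]
    conv_rhs => rw [hx]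
    simp only [map_sum, map_smul, LinearMap.sum_apply, LinearMap.smul_apply, hsec]
  obtain ⟨B, hB⟩ : ∃ B : (ι₁ → ℂ) →ₗ[ℂ] (ι₂ → ℂ) →ₗ[ℂ] ℂ, ∀ x b,
      B x b = φ (R₂.toLin.free hn (kcoS n (∑ i, x i • sec i)) (P₂ b)) := by
    refine ⟨LinearMap.mk₂ ℂ (fun x b => φ (R₂.toLin.free hn (kcoS n (∑ i, x i • sec i)) (P₂ b)))
      ?_ ?_ ?_ ?_, fun x b => rfl⟩
    · intro x x' b
      simp only [Pi.add_apply, add_smul, Finset.sum_add_distrib, map_add, LinearMap.add_apply]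
    · intro c x b
      simp only [Pi.smul_apply, smul_eq_mul, mul_smul, ← Finset.smul_sum, map_smul,
        LinearMap.smul_apply]
    · intro x b b'
      simp only [map_add]
    · intro c x b
      simp only [map_smul]
  have hKB : ∀ (a : FA n), ∀ b ∈ R₂.cyc v₂,
      B (R₁.toLin.free hn a v₁) b = φ (R₂.toLin.free hn (kcoS n a) b) := by
    intro a b hb
    rw [hB, hP₂2 b hb]
    set x := R₁.toLin.free hn a v₁ with hx
    have h0 : R₁.toLin.free hn ((∑ i, x i • sec i) - a) v₁ = 0 := by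
      rw [map_sub, LinearMap.sub_apply, hsec2, hP₁2 x (free_mem_cyc hn R₁ v₁ a), hx, sub_self]
    have h1 := kco_kill hn Hh R₂ _ (cyc_inv R₂ v₂) φ hkill _
      ((rep_present hn Hh R₁ v₁ h₁ _).mp h0) b hb
    rw [map_sub, map_sub, LinearMap.sub_apply, map_sub] at h1
    exact sub_eq_zero.mp h1
  refine ⟨P (fun q : ι₁ × ι₂ => star (B (Pi.single q.1 1) (Pi.single q.2 1))), hP1 _, ?_⟩
  intro a b hb
  have hmem : tmul (R₁.toLin.free hn a v₁) b ∈ tsub (R₁.cyc v₁) (R₂.cyc v₂) :=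
    Submodule.subset_span ⟨_, free_mem_cyc hn R₁ v₁ a, b, hb, rfl⟩
  rw [hP5, hP2 _ hmem, kco_form_tmul, hKB a b hb]

omit [Fintype ι₁] [DecidableEq ι₁] [Fintype ι₂] [DecidableEq ι₂] in
theorem kco_tmul_smul_left (c : ℂ) (a : ι₁ → ℂ) (b : ι₂ → ℂ) : tmul (c • a) b = c • tmul a b := by
  funext q; simp [tmul, mul_assoc]

omit [Fintype ι₁] [DecidableEq ι₁] [Fintype ι₂] [DecidableEq ι₂] in
theorem kco_tmul_smul_right (c : ℂ) (a : ι₁ → ℂ) (b : ι₂ → ℂ) : tmul a (c • b) = c • tmul a b := by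
  funext q; simp [tmul, mul_left_comm]

omit [Fintype ι₁] [DecidableEq ι₁] [Fintype ι₂] [DecidableEq ι₂] in
theorem kco_tmul_add_left (a a' : ι₁ → ℂ) (b : ι₂ → ℂ) : tmul (a + a') b = tmul a b + tmul a' b := by
  funext q; simp [tmul, add_mul]

omit [Fintype ι₁] [DecidableEq ι₁] [Fintype ι₂] [DecidableEq ι₂] in
theorem kco_tmul_add_right (a : ι₁ → ℂ) (b b' : ι₂ → ℂ) : tmul a (b + b') = tmul a b + tmul a b' := by
  funext q; simp [tmul, mul_add]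

omit [Fintype ι₁] [DecidableEq ι₁] [Fintype ι₂] [DecidableEq ι₂] in
theorem kco_tmul_zero_left (b : ι₂ → ℂ) : tmul (0 : ι₁ → ℂ) b = 0 := by
  funext q; simp [tmul]

omit [Fintype ι₁] [DecidableEq ι₁] [Fintype ι₂] [DecidableEq ι₂] in
theorem kco_tmul_zero_right (a : ι₁ → ℂ) : tmul a (0 : ι₂ → ℂ) = 0 := by
  funext q; simp [tmul]

theorem kco_op_neg (R : StarRep Ty.D n ι) (X : Matrix (Ix n) (Ix n) ℂ) : R.op (-X) = - R.op X := by
  unfold StarRep.op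
  rw [map_neg, map_neg]

/-- step (c) -/
theorem kco_p_prim (hn : 2 ≤ n) (Hh : Fin n → ℤ) (R₁ : StarRep Ty.D n ι₁) (R₂ : StarRep Ty.D n ι₂)
    (v₁ : ι₁ → ℂ) (v₂ : ι₂ → ℂ) (h₁ : IsHW R₁ v₁ (halfV Hh)) (φ : (ι₂ → ℂ) →ₗ[ℂ] ℂ)
    (p : ι₁ × ι₂ → ℂ) (hp : p ∈ tsub (R₁.cyc v₁) (R₂.cyc v₂))
    (hK : ∀ (a : FA n), ∀ b ∈ R₂.cyc v₂,
      star p ⬝ᵥ tmul (R₁.toLin.free hn a v₁) b = φ (R₂.toLin.free hn (kcoS n a) b)) :
    p ∈ (R₁.kron R₂).prim := by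
  have hMt := rep_inv_tsub R₁ R₂ _ _ (cyc_inv R₁ v₁) (cyc_inv R₂ v₂)
  apply prim_of_simple hn
  intro i
  have hInG : Ty.D.InG (rootVec (simpleRD hn i)) := (isRootVec_rootVec _).1
  have hInG' : Ty.D.InG (rootVec (simpleRD hn i).neg) := (isRootVec_rootVec _).1
  have hcl : ∀ y ∈ tsub (R₁.cyc v₁) (R₂.cyc v₂),
      star p ⬝ᵥ (R₁.kron R₂).op (rootVec (simpleRD hn i).neg) y = 0 := by
    intro y hy
    unfold tsub at hy
    induction hy using Submodule.span_induction with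
    | mem y hy =>
      obtain ⟨x, hx, b, hb, rfl⟩ := hy
      obtain ⟨a, rfl⟩ := cyc_words hn R₁ v₁ _ h₁ x hx
      rw [roi_kron_op, dotProduct_add, ← free_fgen hn R₁ i, ← kco_free_mul, hK _ b hb,
        hK a _ (cyc_inv R₂ v₂ _ hInG' b hb), kco_S_mul, kco_S_fgen, kco_free_mul, map_neg,
        LinearMap.neg_apply, free_fgen, map_neg, map_neg, neg_add_cancel]
    | zero => rw [map_zero, dotProduct_zero]
    | add s t _ _ hs ht => rw [map_add, dotProduct_add, hs, ht, add_zero]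
    | smul c s _ hs => rw [map_smul, dotProduct_smul, hs, smul_zero]
  rw [← star_dot_self_eq_zero, op_adjoint _ _ hInG, rootVec_conjTranspose, kco_op_neg,
    LinearMap.neg_apply, dotProduct_neg, hcl _ (hMt _ hInG p hp), neg_zero]

theorem kco_dot_add (x y z : Vec n) : dot (x + y) z = dot x z + dot y z := by
  simp [dot, add_mul, Finset.sum_add_distrib]

/-- step (d) -/
theorem kco_p_wt (hn : 2 ≤ n) (Hh Hh' : Fin n → ℤ) (R₁ : StarRep Ty.D n ι₁) (R₂ : StarRep Ty.D n ι₂)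
    (v₁ : ι₁ → ℂ) (v₂ : ι₂ → ℂ) (h₁ : IsHW R₁ v₁ (halfV Hh)) (φ : (ι₂ → ℂ) →ₗ[ℂ] ℂ)
    (hsupp : ∀ χ : Vec n, χ ≠ halfV (Hh' - Hh) → ∀ b ∈ R₂.cyc v₂ ⊓ R₂.wt χ, φ b = 0)
    (p : ι₁ × ι₂ → ℂ) (hp : p ∈ tsub (R₁.cyc v₁) (R₂.cyc v₂))
    (hK : ∀ (a : FA n), ∀ b ∈ R₂.cyc v₂,
      star p ⬝ᵥ tmul (R₁.toLin.free hn a v₁) b = φ (R₂.toLin.free hn (kcoS n a) b)) :
    p ∈ (R₁.kron R₂).wt (halfV Hh') := by
  have hMt := rep_inv_tsub R₁ R₂ _ _ (cyc_inv R₁ v₁) (cyc_inv R₂ v₂)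
  have hv₁w : v₁ ∈ R₁.wt (halfV Hh) := ((isHW_iff R₁ _ _).mp h₁).2.1
  rw [mem_wt]
  intro t
  -- weight vectors
  have hL1 : ∀ (w : List (Fin n)) (ψ : Vec n), ∀ b ∈ R₂.cyc v₂ ⊓ R₂.wt ψ,
      star p ⬝ᵥ (R₁.kron R₂).op (Hc t) (tmul (R₁.toLin.free hn (wordMon ℂ n w) v₁) b) =
        ((dot (halfV Hh') t : ℝ) : ℂ) * (star p ⬝ᵥ tmul (R₁.toLin.free hn (wordMon ℂ n w) v₁) b) := by
    intro w ψ b hb
    have hxw := (mem_wt R₁ _ _).mp (word_wt hn R₁ v₁ _ hv₁w w) t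
    have hbw := (mem_wt R₂ _ _).mp hb.2 t
    rw [roi_kron_op, hxw, hbw, kco_tmul_smul_left, kco_tmul_smul_right, ← add_smul,
      dotProduct_smul, smul_eq_mul]
    by_cases hψ : ψ - ∑ i, (w.count i : ℝ) • (simpleRD hn i).vec = halfV (Hh' - Hh)
    · congr 1
      rw [← Complex.ofReal_add, ← kco_dot_add]
      congr 2
      rw [halfV_sub] at hψ
      have : ψ = halfV Hh' - halfV Hh + ∑ i, (w.count i : ℝ) • (simpleRD hn i).vec := by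
        rw [← hψ]; abel
      rw [this]; abel
    · have h0 : star p ⬝ᵥ tmul (R₁.toLin.free hn (wordMon ℂ n w) v₁) b = 0 := by
        rw [hK _ b hb.1, kco_S_word, map_smul, LinearMap.smul_apply, map_smul]
        have hw2 := word_wt hn R₂ b ψ hb.2 w.reverse
        simp only [List.count_reverse] at hw2
        rw [hsupp _ hψ _ ⟨free_mem_inv hn R₂ _ (cyc_inv R₂ v₂) _ b hb.1, hw2⟩, smul_zero]
      rw [h0, mul_zero, mul_zero]
  -- all `b`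
  have hL2 : ∀ (w : List (Fin n)), ∀ b ∈ R₂.cyc v₂,
      star p ⬝ᵥ (R₁.kron R₂).op (Hc t) (tmul (R₁.toLin.free hn (wordMon ℂ n w) v₁) b) =
        ((dot (halfV Hh') t : ℝ) : ℂ) * (star p ⬝ᵥ tmul (R₁.toLin.free hn (wordMon ℂ n w) v₁) b) := by
    intro w b hb
    obtain ⟨F, c, hc, rfl⟩ := wt_components R₂ _ (cyc_inv R₂ v₂) b hb
    clear hb
    induction F using Finset.induction_on with
    | empty => simp [kco_tmul_zero_right]
    | insert χ F hχ ih =>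
      rw [Finset.sum_insert hχ, kco_tmul_add_right, map_add, dotProduct_add, dotProduct_add,
        mul_add, hL1 w χ _ (hc χ (Finset.mem_insert_self _ _)),
        ih (fun χ' h' => hc χ' (Finset.mem_insert_of_mem h'))]
  -- all `a`
  have hL3 : ∀ (a : FA n), ∀ b ∈ R₂.cyc v₂,
      star p ⬝ᵥ (R₁.kron R₂).op (Hc t) (tmul (R₁.toLin.free hn a v₁) b) =
        ((dot (halfV Hh') t : ℝ) : ℂ) * (star p ⬝ᵥ tmul (R₁.toLin.free hn a v₁) b) := by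
    intro a b hb
    induction a using fk_induction with
    | hw w => exact hL2 w b hb
    | h0 => simp [kco_tmul_zero_left]
    | hadd x y hx hy =>
      rw [map_add, LinearMap.add_apply, kco_tmul_add_left, map_add, dotProduct_add, dotProduct_add,
        mul_add, hx, hy]
    | hsmul r x hx =>
      rw [map_smul, LinearMap.smul_apply, kco_tmul_smul_left, map_smul, dotProduct_smul,
        dotProduct_smul, hx, smul_eq_mul, smul_eq_mul]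
      ring
  have hcl : ∀ y ∈ tsub (R₁.cyc v₁) (R₂.cyc v₂),
      star p ⬝ᵥ (R₁.kron R₂).op (Hc t) y = ((dot (halfV Hh') t : ℝ) : ℂ) * (star p ⬝ᵥ y) := by
    intro y hy
    unfold tsub at hy
    induction hy using Submodule.span_induction with
    | mem y hy =>
      obtain ⟨x, hx, b, hb, rfl⟩ := hy
      obtain ⟨a, rfl⟩ := cyc_words hn R₁ v₁ _ h₁ x hx
      exact hL3 a b hb
    | zero => rw [map_zero, dotProduct_zero, mul_zero]
    | add s t _ _ hs ht => rw [map_add, dotProduct_add, dotProduct_add, hs, ht, mul_add]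
    | smul c s _ hs =>
      rw [map_smul, dotProduct_smul, dotProduct_smul, hs, smul_eq_mul, smul_eq_mul]; ring
  rw [← sub_eq_zero, ← star_dot_self_eq_zero]
  have hq : (R₁.kron R₂).op (Hc t) p - ((dot (halfV Hh') t : ℝ) : ℂ) • p ∈
      tsub (R₁.cyc v₁) (R₂.cyc v₂) :=
    Submodule.sub_mem _ (hMt _ (inG_Hc t) p hp) (Submodule.smul_mem _ _ hp)
  have hall : ∀ y ∈ tsub (R₁.cyc v₁) (R₂.cyc v₂),
      star ((R₁.kron R₂).op (Hc t) p - ((dot (halfV Hh') t : ℝ) : ℂ) • p) ⬝ᵥ y = 0 := by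
    intro y hy
    rw [star_sub, sub_dotProduct, op_adjoint _ _ (inG_Hc t), Hc_conjTranspose, hcl y hy, star_smul,
      smul_dotProduct, smul_eq_mul]
    simp
  exact hall _ hq

/-- **Lemma 2.3, sufficiency**: a form on `V(θ)` supported at the weight `h' - h` which kills `∑ f_i^(h_i+1) V(θ)` is the highest-to-highest coefficient of an intertwiner. -/
theorem rep_coeff (hn : 2 ≤ n) (Hh Th Hh' : Fin n → ℤ) (R₁ : StarRep Ty.D n ι₁) (R₂ : StarRep Ty.D n ι₂)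
    (R₃ : StarRep Ty.D n ι₃) (v₁ : ι₁ → ℂ) (v₂ : ι₂ → ℂ) (v₃ : ι₃ → ℂ) (h₁ : IsHW R₁ v₁ (halfV Hh))
    (h₂ : IsHW R₂ v₂ (halfV Th)) (h₃ : IsHW R₃ v₃ (halfV Hh'))
    (φ : (ι₂ → ℂ) →ₗ[ℂ] ℂ)
    (hsupp : ∀ χ : Vec n, χ ≠ halfV (Hh' - Hh) → ∀ b ∈ R₂.cyc v₂ ⊓ R₂.wt χ, φ b = 0)
    (hkill : ∀ (i : Fin n), ∀ b ∈ R₂.cyc v₂,
      φ (((R₂.op (rootVec (simpleRD hn i).neg)) ^ (cwt Hh i + 1)) b) = 0) :
    ∃ T : (ι₁ → ℂ) →ₗ[ℂ] (ι₂ → ℂ) →ₗ[ℂ] (ι₃ → ℂ), RepEquivar R₁ R₂ R₃ T ∧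
      ∀ b ∈ R₂.cyc v₂, star v₃ ⬝ᵥ T v₁ b = φ b := by
  obtain ⟨p, hp, hK⟩ := kco_exists_p hn Hh R₁ R₂ v₁ v₂ h₁ φ hkill
  have hprim := kco_p_prim hn Hh R₁ R₂ v₁ v₂ h₁ φ p hp hK
  have hwt := kco_p_wt hn Hh Hh' R₁ R₂ v₁ v₂ h₁ φ hsupp p hp hK
  have hφ : ∀ b ∈ R₂.cyc v₂, star p ⬝ᵥ tmul v₁ b = φ b := by
    intro b hb
    have := hK 1 b hb
    rwa [kco_S_one, map_one, map_one] at this
  by_cases hp0 : p = 0
  · refine ⟨0, ?_, ?_⟩
    · intro X _ a b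
      simp
    · intro b hb
      rw [← hφ b hb, hp0]
      simp
  · have hHW : IsHW (R₁.kron R₂) p (halfV Hh') := (isHW_iff _ _ _).mpr ⟨hp0, hwt, hprim⟩
    obtain ⟨Ψ, hΨp, hΨeq, hΨperp, -, -, c, hc, hΨsim⟩ :=
      rep_unique_perp (R₁.kron R₂) R₃ p v₃ _ hHW h₃
    have hpair : ∀ y : ι₁ × ι₂ → ℂ, star v₃ ⬝ᵥ Ψ y = (c : ℂ) * (star p ⬝ᵥ y) := by
      intro y
      have hy : y ∈ (R₁.kron R₂).cyc p ⊔ orthC ((R₁.kron R₂).cyc p) := by
        rw [orthC_sup]; trivial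
      obtain ⟨y', hy', y'', hy'', rfl⟩ := Submodule.mem_sup.mp hy
      rw [map_add, hΨperp y'' hy'', add_zero, dotProduct_add, hy'' p (mem_cyc _ p), add_zero,
        ← hΨp, hΨsim p (mem_cyc _ p) y' hy']
    have hc0 : (c : ℂ) ≠ 0 := by exact_mod_cast hc.ne'
    refine ⟨(roiT (Equiv.refl ι₁) (Equiv.refl ι₂) (Equiv.refl (ι₁ × ι₂))).compr₂
      ((c : ℂ)⁻¹ • Ψ), ?_, ?_⟩
    · intro X hX a b
      show R₃.op X ((c : ℂ)⁻¹ • Ψ (tmul a b)) =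
        (c : ℂ)⁻¹ • Ψ (tmul (R₁.op X a) b) + (c : ℂ)⁻¹ • Ψ (tmul a (R₂.op X b))
      rw [map_smul, ← hΨeq X hX, roi_kron_op, map_add, smul_add]
    · intro b hb
      show star v₃ ⬝ᵥ ((c : ℂ)⁻¹ • Ψ (tmul v₁ b)) = φ b
      rw [dotProduct_smul, hpair, hφ b hb, smul_eq_mul, inv_mul_cancel_left₀ hc0]

theorem knc_neg_neg (β : RootD n) : β.neg.neg = β := by
  cases β
  simp [RootD.neg]

/-- a highest weight vector is orthogonal to the image of a negative simple root vector -/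
theorem knc_hw_orth (hn : 2 ≤ n) (R : StarRep Ty.D n ι) (v : ι → ℂ) (lam : Vec n) (h : IsHW R v lam)
    (i : Fin n) (y : ι → ℂ) : star v ⬝ᵥ R.op (rootVec (simpleRD hn i).neg) y = 0 := by
  have hG : Ty.D.InG (rootVec (simpleRD hn i)) := (isRootVec_rootVec _).1
  have h1 := op_adjoint R (rootVec (simpleRD hn i)) hG v y
  have h2 : R.op (rootVec (simpleRD hn i)) v = 0 :=
    h.top _ _ (simpleRD_pos hn i) (isRootVec_rootVec _)
  rw [h2, star_zero, zero_dotProduct, rootVec_conjTranspose] at h1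
  have h3 : R.op (-rootVec (simpleRD hn i).neg) y = - R.op (rootVec (simpleRD hn i).neg) y := by
    rw [op_apply, op_apply, map_neg, Matrix.neg_mulVec]
  rw [h3, dotProduct_neg] at h1
  exact neg_eq_zero.1 h1.symm

/-- moving a lowering operator from the second to the first argument -/
theorem knc_move (hn : 2 ≤ n) (R₁ : StarRep Ty.D n ι₁) (R₂ : StarRep Ty.D n ι₂) (R₃ : StarRep Ty.D n ι₃)
    (v₃ : ι₃ → ℂ) (lam : Vec n) (h₃ : IsHW R₃ v₃ lam)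
    (T : (ι₁ → ℂ) →ₗ[ℂ] (ι₂ → ℂ) →ₗ[ℂ] (ι₃ → ℂ)) (hT : RepEquivar R₁ R₂ R₃ T) (i : Fin n)
    (a : ι₁ → ℂ) (b : ι₂ → ℂ) :
    star v₃ ⬝ᵥ T a (R₂.op (rootVec (simpleRD hn i).neg) b)
      = - (star v₃ ⬝ᵥ T (R₁.op (rootVec (simpleRD hn i).neg) a) b) := by
  have h1 := hT _ (isRootVec_rootVec (simpleRD hn i).neg).1 a b
  have h2 := knc_hw_orth hn R₃ v₃ lam h₃ i (T a b)
  rw [h1, dotProduct_add] at h2
  linear_combination h2

theorem knc_move_pow (hn : 2 ≤ n) (R₁ : StarRep Ty.D n ι₁) (R₂ : StarRep Ty.D n ι₂)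
    (R₃ : StarRep Ty.D n ι₃) (v₃ : ι₃ → ℂ) (lam : Vec n) (h₃ : IsHW R₃ v₃ lam)
    (T : (ι₁ → ℂ) →ₗ[ℂ] (ι₂ → ℂ) →ₗ[ℂ] (ι₃ → ℂ)) (hT : RepEquivar R₁ R₂ R₃ T) (i : Fin n) (k : ℕ) :
    ∀ (a : ι₁ → ℂ) (b : ι₂ → ℂ),
    star v₃ ⬝ᵥ T a (((R₂.op (rootVec (simpleRD hn i).neg)) ^ k) b)
      = (-1) ^ k * (star v₃ ⬝ᵥ T (((R₁.op (rootVec (simpleRD hn i).neg)) ^ k) a) b) := by
  induction k with
  | zero => intro a b; simp
  | succ k ih =>
    intro a b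
    rw [pow_succ', Module.End.mul_apply, knc_move hn R₁ R₂ R₃ v₃ lam h₃ T hT i, ih, pow_succ (R₁.op _),
      Module.End.mul_apply, pow_succ]
    ring

theorem knc_free_fgen (hn : 2 ≤ n) (R : StarRep Ty.D n ι) (i : Fin n) :
    R.toLin.free hn (fgen ℂ n i) = R.op (rootVec (simpleRD hn i).neg) :=
  LinearMap.ext fun a => free_fgen hn R i a

/-- step A of (3) -/
theorem knc_words (hn : 2 ≤ n) (R₁ : StarRep Ty.D n ι₁) (R₂ : StarRep Ty.D n ι₂)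
    (R₃ : StarRep Ty.D n ι₃) (v₃ : ι₃ → ℂ) (lam : Vec n) (h₃ : IsHW R₃ v₃ lam)
    (T : (ι₁ → ℂ) →ₗ[ℂ] (ι₂ → ℂ) →ₗ[ℂ] (ι₃ → ℂ)) (hT : RepEquivar R₁ R₂ R₃ T)
    (S : Submodule ℂ (ι₂ → ℂ)) (hS : R₂.Inv S) (w : FreeAlgebra ℂ (Fin n)) :
    ∀ u : ι₁ → ℂ, (∀ b ∈ S, star v₃ ⬝ᵥ T u b = 0) →
      ∀ b ∈ S, star v₃ ⬝ᵥ T (R₁.toLin.free hn w u) b = 0 := by
  induction w using FreeAlgebra.induction with
  | grade0 r =>
    intro u hu b hb
    rw [AlgHom.commutes, Module.algebraMap_end_apply, map_smul, LinearMap.smul_apply, dotProduct_smul,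
      hu b hb, smul_zero]
  | grade1 i =>
    intro u hu b hb
    have e : R₁.toLin.free hn (FreeAlgebra.ι ℂ i) = R₁.op (rootVec (simpleRD hn i).neg) :=
      knc_free_fgen hn R₁ i
    have h1 := knc_move hn R₁ R₂ R₃ v₃ lam h₃ T hT i u b
    rw [hu _ (hS _ (isRootVec_rootVec (simpleRD hn i).neg).1 b hb)] at h1
    rw [e]
    exact neg_eq_zero.1 h1.symm
  | mul a b iha ihb =>
    intro u hu c hc
    rw [map_mul, Module.End.mul_apply]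
    exact iha _ (ihb u hu) c hc
  | add a b iha ihb =>
    intro u hu c hc
    rw [map_add, LinearMap.add_apply, map_add, LinearMap.add_apply, dotProduct_add, iha u hu c hc,
      ihb u hu c hc, add_zero]

/-- **Lemma 2.3, necessity** -/
theorem rep_coeff_nec (hn : 2 ≤ n) (Hh Th Hh' : Fin n → ℤ) (R₁ : StarRep Ty.D n ι₁)
    (R₂ : StarRep Ty.D n ι₂) (R₃ : StarRep Ty.D n ι₃) (v₁ : ι₁ → ℂ) (v₂ : ι₂ → ℂ) (v₃ : ι₃ → ℂ)
    (h₁ : IsHW R₁ v₁ (halfV Hh)) (h₂ : IsHW R₂ v₂ (halfV Th)) (h₃ : IsHW R₃ v₃ (halfV Hh'))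
    (T : (ι₁ → ℂ) →ₗ[ℂ] (ι₂ → ℂ) →ₗ[ℂ] (ι₃ → ℂ)) (hT : RepEquivar R₁ R₂ R₃ T) :
    (∀ χ : Vec n, χ ≠ halfV (Hh' - Hh) → ∀ b ∈ R₂.wt χ, star v₃ ⬝ᵥ T v₁ b = 0) ∧
    (∀ (i : Fin n) (b : ι₂ → ℂ),
      star v₃ ⬝ᵥ T v₁ (((R₂.op (rootVec (simpleRD hn i).neg)) ^ (cwt Hh i + 1)) b) = 0) ∧
    ((∀ b ∈ R₂.cyc v₂, star v₃ ⬝ᵥ T v₁ b = 0) →
      ∀ a ∈ R₁.cyc v₁, ∀ b ∈ R₂.cyc v₂, ∀ c ∈ R₃.cyc v₃, star c ⬝ᵥ T a b = 0) := by
  refine ⟨?_, ?_, ?_⟩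
  · intro χ hχ b hb
    have hv₃ : v₃ ∈ R₃.wt (halfV Hh') := (mem_wt R₃ _ v₃).2 h₃.wt
    have hTb : T v₁ b ∈ R₃.wt (halfV Hh + χ) := by
      rw [mem_wt]
      intro x
      have e1 : R₁.op (Hc x) v₁ = ((dot (halfV Hh) x : ℝ) : ℂ) • v₁ := h₁.wt x
      rw [hT _ (inG_Hc x), e1, (mem_wt R₂ χ b).1 hb x, map_smul, LinearMap.smul_apply, map_smul,
        ← add_smul, dot_add_left]
      push_cast
      rfl
    refine wt_orth R₃ _ _ ?_ v₃ _ hv₃ hTb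
    intro he
    apply hχ
    rw [halfV_sub, he]
    abel
  · intro i b
    rw [knc_move_pow hn R₁ R₂ R₃ v₃ _ h₃ T hT i]
    have h := free_pow_top hn R₁ v₁ Hh h₁ i
    rw [map_pow, knc_free_fgen] at h
    rw [h, map_zero, LinearMap.zero_apply, dotProduct_zero, mul_zero]
  · intro h0 a ha b hb c hc
    -- the span of all values
    obtain ⟨S, hS⟩ : ∃ S : Submodule ℂ (ι₃ → ℂ),
        S = Submodule.span ℂ {y | ∃ a ∈ R₁.cyc v₁, ∃ b ∈ R₂.cyc v₂, y = T a b} := ⟨_, rfl⟩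
    have hinv : R₃.Inv S := by
      intro X hX y hy
      rw [hS] at hy ⊢
      induction hy using Submodule.span_induction with
      | mem y hy =>
        obtain ⟨a, ha, b, hb, rfl⟩ := hy
        rw [hT X hX]
        exact Submodule.add_mem _
          (Submodule.subset_span ⟨_, cyc_inv R₁ v₁ X hX a ha, b, hb, rfl⟩)
          (Submodule.subset_span ⟨a, ha, _, cyc_inv R₂ v₂ X hX b hb, rfl⟩)
      | zero => rw [map_zero]; exact Submodule.zero_mem _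
      | add y z _ _ hy hz => rw [map_add]; exact Submodule.add_mem _ hy hz
      | smul r y _ hy => rw [map_smul]; exact Submodule.smul_mem _ r hy
    have hv₃ : v₃ ∈ orthC S := by
      intro y hy
      rw [hS] at hy
      induction hy using Submodule.span_induction with
      | mem y hy =>
        obtain ⟨a, ha, b, hb, rfl⟩ := hy
        obtain ⟨w, rfl⟩ := cyc_words hn R₁ v₁ _ h₁ a ha
        exact apiInv_orth_symm
          (knc_words hn R₁ R₂ R₃ v₃ _ h₃ T hT _ (cyc_inv R₂ v₂) w v₁ h0 b hb)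
      | zero => rw [star_zero, zero_dotProduct]
      | add y z _ _ hy hz => rw [star_add, add_dotProduct, hy, hz, add_zero]
      | smul r y _ hy => rw [star_smul, smul_dotProduct, hy, smul_zero]
    have hle := cyc_le R₃ v₃ _ (inv_orthC R₃ S hinv) hv₃
    have hmem : T a b ∈ S := by
      rw [hS]
      exact Submodule.subset_span ⟨a, ha, b, hb, rfl⟩
    exact apiInv_orth_symm (hle hc _ hmem)

end Claimed.Agent.R282
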