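import Claimed.Agent.R282.Rep.Tree
import Claimed.Agent.R282.K2.FreeKit
import Claimed.Agent.R282.K2.C.Main

/-!
# Row 282, Rep, package K (presentation of `V(M)`): DEFINITIONS (helper103).  No sorry here.

`FA n = FreeAlgebra ℂ (Fin n)` with the basis of words `wordMon ℂ n w` (`K2/FreeKit.lean`: `fk_basis`, `fk_span`, `fk_induction`, `fk_ext`, `wordMon_cons`, ..).
* `cartD n i k = ⟨α_i, α_k⟩` (Cartan matrix), `wsh w k = ⟨weight of the word w, α_k⟩`.
* `prE c k` : the operator `E_k` on the FREE algebra for the "highest weight" `c` (`c k = ⟨λ, α_k⟩`):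
     `E_k 1 = 0`,  `E_k (f_j w) = f_j E_k w + δ_jk (c_k - ⟨wt w, α_k⟩) w`.
* `leftI b = ∑ F f_i^(b_i+1)`, `presI b = Serre + leftI b`.
* `degSpan d` (words of multidegree `d`), `lenSpan D` (words of length `≤ D`), `degPart d` (projection on `degSpan d`).
* `casq c w = ⟨λ, λ+2ρ⟩ - ⟨χ, χ+2ρ⟩`, `χ = λ - wt w`, in terms of `c`.
* `PolyIn g` : `g : ℂ → W` is a polynomial function.

## ROUTE to `rep_present` (⇒)   (no Serre theorem, no Verma modules, no integrability)
`Ann = {a | a v = 0}`, `b = cwt M`, `c = b`.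
(1) `prE c k` preserves `serreSpan` and `presI b` (`Free2`, `Free3`), `free (prE c k a) v = - e_k (free a v)` (`Inter`).
(2) `f_i` is locally nilpotent modulo `presI b`; a homogeneous `a ∉ presI b` with `prE c i a ∈ presI b` has `⟨χ, α_i⟩ ≥ 0` (`Free3`).
(3) STABLE RANGE (`Stable`): for `N = M + t ρ`, `t ≥ t₀(D)`, an element `a` of length `≤ D` with `a v_N = 0` lies in `serreSpan`: `dim (F/Serre)_d ≤ #KP(d) ≤ kostantD` (`k2c_span`) and `dim V(N)_(N-d) = kostantD` (Kostant's formula, only `w = 1`).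
(4) (`Cas`) there is `G c : F → F`, polynomial in `c`, built from `prE c k` and left multiplications, with `free (G c w) v = casq c w • free w v` in every model (Casimir).  So `casq c w • w - G c w ∈ serreSpan` for `c = b + t`, `t ≥ t₀`; polynomial in `t` (`Poly`), hence also for `t = 0`.
(5) (`Present`) induction on the degree: `a ∈ Ann` homogeneous, `a ∉ presI b`: `prE c k a ∈ Ann`, of smaller degree, so `∈ presI b`; so `G c a ∈ presI b`, `casq • a ∈ presI b`, and `casq > 0` by (2).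
-/

set_option autoImplicit false

namespace Claimed.Agent.R282

open Claims.C0456 Matrix

variable {n : ℕ}

/-- the free algebra on `f_0 .. f_(n-1)` over `ℂ` -/
abbrev FA (n : ℕ) := FreeAlgebra ℂ (Fin n)

/-- Cartan matrix `⟨α_i, α_k⟩` -/
def cartD (n : ℕ) (i k : Fin n) : ℤ := ∑ l, simpleRootD n i l * simpleRootD n k l

/-- `⟨weight of the word w, α_k⟩` -/
def wsh (w : List (Fin n)) (k : Fin n) : ℤ := (w.map fun i => cartD n i k).sum

/-- `⟨∑ d_i α_i, α_k⟩` -/
def dsh (d : Fin n → ℕ) (k : Fin n) : ℤ := ∑ i, (d i : ℤ) * cartD n i k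

/-- `E_k` on words -/
noncomputable def prEWord (c : Fin n → ℂ) (k : Fin n) : List (Fin n) → FA n
  | [] => 0
  | j :: w => fgen ℂ n j * prEWord c k w +
      (if j = k then (c k - (wsh w k : ℂ)) • wordMon ℂ n w else 0)

/-- the operator `E_k` on the free algebra -/
noncomputable def prE (c : Fin n → ℂ) (k : Fin n) : FA n →ₗ[ℂ] FA n :=
  (FreeAlgebra.basisFreeMonoid ℂ (Fin n)).constr ℂ (fun w => prEWord c k (FreeMonoid.toList w))

theorem prE_word (c : Fin n → ℂ) (k : Fin n) (w : List (Fin n)) :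
    prE c k (wordMon ℂ n w) = prEWord c k w := by
  rw [← fk_basis, prE, Module.Basis.constr_basis]
  rfl

/-- the derivative of `prE` in the direction `(1, .., 1)` -/
noncomputable def prD (k : Fin n) : FA n →ₗ[ℂ] FA n := prE (fun _ => 1) k - prE (fun _ => 0) k

/-- the action of the free algebra on itself through the operators `E_k` -/
noncomputable def prEAct (c : Fin n → ℂ) : FA n →ₐ[ℂ] Module.End ℂ (FA n) :=
  FreeAlgebra.lift ℂ fun k => prE c k

/-- `∑ F f_i^(b_i+1)` -/
noncomputable def leftI (b : Fin n → ℕ) : Submodule ℂ (FA n) :=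
  Submodule.span ℂ {x | ∃ u i, x = u * fgen ℂ n i ^ (b i + 1)}

/-- `Serre + ∑ F f_i^(b_i+1)` -/
noncomputable def presI (b : Fin n → ℕ) : Submodule ℂ (FA n) := serreSpan ℂ n ⊔ leftI b

/-- words of multidegree `d` -/
noncomputable def degSpan (d : Fin n → ℕ) : Submodule ℂ (FA n) :=
  Submodule.span ℂ {x | ∃ w : List (Fin n), (∀ i, w.count i = d i) ∧ x = wordMon ℂ n w}

/-- words of length `≤ D` -/
noncomputable def lenSpan (n D : ℕ) : Submodule ℂ (FA n) :=
  Submodule.span ℂ {x | ∃ w : List (Fin n), w.length ≤ D ∧ x = wordMon ℂ n w}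

/-- the homogeneous component of multidegree `d` -/
noncomputable def degPart (d : Fin n → ℕ) : FA n →ₗ[ℂ] FA n :=
  (FreeAlgebra.basisFreeMonoid ℂ (Fin n)).constr ℂ
    (fun w => if (∀ i, (FreeMonoid.toList w).count i = d i) then wordMon ℂ n (FreeMonoid.toList w) else 0)

theorem degPart_word (d : Fin n → ℕ) (w : List (Fin n)) :
    degPart d (wordMon ℂ n w) = if (∀ i, w.count i = d i) then wordMon ℂ n w else 0 := by
  have h : degPart d (FreeAlgebra.basisFreeMonoid ℂ (Fin n) (FreeMonoid.ofList w)) =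
      if (∀ i, w.count i = d i) then wordMon ℂ n w else 0 := by
    rw [degPart, Module.Basis.constr_basis]
    rfl
  rwa [fk_basis] at h

/-- `⟨λ, λ + 2ρ⟩ - ⟨χ, χ + 2ρ⟩` for `χ = λ - ∑ d_i α_i`, `c_i = ⟨λ, α_i⟩` -/
def casqD (c : Fin n → ℂ) (d : Fin n → ℕ) : ℂ := ∑ i, (d i : ℂ) * (2 * c i + 2 - (dsh d i : ℂ))

/-- polynomial functions `ℂ → W` -/
def PolyIn {W : Type*} [AddCommGroup W] [Module ℂ W] (g : ℂ → W) : Prop :=
  ∃ (J : ℕ) (co : ℕ → W), ∀ t, g t = ∑ j ∈ Finset.range J, t ^ j • co j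

/-- `∑ d_i α_i` (integral vector) -/
def degVec (d : Fin n → ℕ) : Fin n → ℤ := ∑ i, d i • simpleRootD n i

end Claimed.Agent.R282
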