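import Claimed.Agent.R282.Rep.K.FDefs

/-!
# Row 282, Rep/K, LEAF L-K-FREE1 : calculus of the operators `prE c k` on the free algebra, Cartan matrix, Serre elements (statements by helper103), ~700 lines

Everything is elementary: induction on words (`prE_word`, `prEWord`, `wordMon_cons`, `wordMon_append`, `fk_induction`, `fk_ext` of `K2/FreeKit.lean`).
* `cartD`: unfold `simpleRootD`; `α_i = e_i - e_(i+1)` (`i + 1 < n`), `α_(n-1) = e_(n-2) + e_(n-1)`; `adjD` as in `K2/Iface.lean`.  Suggestion: prove `cartD n i k` by cases on `i + 1 < n`, `k + 1 < n` with `Finset.sum_ite_eq`-type lemmas, or through explicit supports.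
* `prE_mul_word` (twisted Leibniz rule): induction on the word `a = wordMon x` (linear in `a`): `x = j :: x'`, use `wsh_append`.
* `prE_serre`: write `serreElt` as a combination of the words `[i,i,j], [i,j,i], [j,i,i]` (resp. `[i,j], [j,i]`), compute `prEWord`:
    adjacent, `k = i`:  `[i,i,j] ↦ (c-1) + (c+1) = 2c` times `[i,j]`;  `[i,j,i] ↦ (c-1) [j,i] + c [i,j]`;  `[j,i,i] ↦ ((c-2) + c) [j,i]`;  total `2c [i,j] - 2(c-1) [j,i] - 2c [i,j] + (2c-2) [j,i] = 0`.
    adjacent, `k = j`:  `c - 2 (c+1) + (c+2) = 0` times `[i,i]`.   non adjacent `i ≠ j`: `k = i`: `(c - 0) [j] - c [j] = 0`, same for `k = j`.   `i = j`: `serreElt = 0`.   `k ∉ {i,j}`: all terms vanish.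
* `prE_serreSpan`: `prE c k (u θ w)` for words `u, w` by `prE_mul_word` twice: `= u θ E(w) + u E'(θ) w + E''(u) θ w`.
-/

set_option autoImplicit false

namespace Claimed.Agent.R282

open Claims.C0456 Matrix

variable {n : ℕ}

/-! ## Cartan matrix -/

theorem kf1_root_lt (i : Fin n) (h : (i : ℕ) + 1 < n) :
    simpleRootD n i = Pi.single i 1 - Pi.single (⟨(i : ℕ) + 1, h⟩ : Fin n) 1 := by
  funext k
  simp only [simpleRootD, if_pos h, Pi.sub_apply, Pi.single_apply, Fin.ext_iff]

theorem kf1_root_last (hn : 2 ≤ n) (i : Fin n) (h : ¬ (i : ℕ) + 1 < n) :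
    simpleRootD n i = Pi.single (⟨n - 2, by omega⟩ : Fin n) 1 + Pi.single (⟨n - 1, by omega⟩ : Fin n) 1 := by
  funext k
  have hk := k.2
  simp only [simpleRootD, if_neg h, Pi.add_apply, Pi.single_apply, Fin.ext_iff]
  congr 1
  · congr 1
    apply propext
    omega
  · congr 1
    apply propext
    omega

theorem kf1_cart_dot (i k : Fin n) : cartD n i k = simpleRootD n i ⬝ᵥ simpleRootD n k := rfl

theorem cartD_comm (i j : Fin n) : cartD n i j = cartD n j i := by
  rw [kf1_cart_dot, kf1_cart_dot, dotProduct_comm]

theorem kf1_cart_cases (hn : 2 ≤ n) (i j : Fin n) :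
    cartD n i j = if i = j then 2 else if adjD n i j then -1 else 0 := by
  have hi := i.2
  have hj := j.2
  rw [kf1_cart_dot]
  by_cases h1 : (i : ℕ) + 1 < n <;> by_cases h2 : (j : ℕ) + 1 < n
  · rw [kf1_root_lt i h1, kf1_root_lt j h2]
    simp only [sub_dotProduct, dotProduct_sub, single_dotProduct, Pi.single_apply, Fin.ext_iff, adjD]
    split_ifs <;> omega
  · rw [kf1_root_lt i h1, kf1_root_last hn j h2]
    simp only [sub_dotProduct, dotProduct_add, single_dotProduct, Pi.single_apply, Fin.ext_iff, adjD]
    split_ifs <;> omega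
  · rw [kf1_root_last hn i h1, kf1_root_lt j h2]
    simp only [add_dotProduct, dotProduct_sub, single_dotProduct, Pi.single_apply, Fin.ext_iff, adjD]
    split_ifs <;> omega
  · rw [kf1_root_last hn i h1, kf1_root_last hn j h2]
    simp only [add_dotProduct, dotProduct_add, single_dotProduct, Pi.single_apply, Fin.ext_iff, adjD]
    split_ifs <;> omega

theorem adjD_ne (i j : Fin n) (h : adjD n i j) : i ≠ j := by
  rintro rfl
  unfold adjD at h
  omega

theorem cartD_self (hn : 2 ≤ n) (i : Fin n) : cartD n i i = 2 := by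
  rw [kf1_cart_cases hn, if_pos rfl]

theorem cartD_adj (hn : 2 ≤ n) (i j : Fin n) (h : adjD n i j) : cartD n i j = -1 := by
  rw [kf1_cart_cases hn, if_neg (adjD_ne i j h), if_pos h]

theorem cartD_nonadj (hn : 2 ≤ n) (i j : Fin n) (hij : i ≠ j) (h : ¬ adjD n i j) : cartD n i j = 0 := by
  rw [kf1_cart_cases hn, if_neg hij, if_neg h]

theorem adjD_symm' (i j : Fin n) (h : adjD n i j) : adjD n j i := by
  unfold adjD at h ⊢; tauto

/-! ## weights of words -/

theorem wsh_nil (k : Fin n) : wsh ([] : List (Fin n)) k = 0 := rfl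

theorem wsh_cons (j : Fin n) (w : List (Fin n)) (k : Fin n) : wsh (j :: w) k = cartD n j k + wsh w k := by
  simp [wsh]

theorem wsh_append (u w : List (Fin n)) (k : Fin n) : wsh (u ++ w) k = wsh u k + wsh w k := by
  simp [wsh]

theorem kf1_wsh_count (w : List (Fin n)) (k : Fin n) :
    wsh w k = ∑ i, (w.count i : ℤ) * cartD n i k := by
  induction w with
  | nil => simp [wsh]
  | cons j w ih =>
    rw [wsh_cons, ih]
    simp only [List.count_cons, Nat.cast_add, add_mul, Finset.sum_add_distrib]
    rw [add_comm]
    congr 1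
    simp

theorem wsh_eq_dsh (w : List (Fin n)) (d : Fin n → ℕ) (h : ∀ i, w.count i = d i) (k : Fin n) :
    wsh w k = dsh d k := by
  rw [kf1_wsh_count, dsh]
  exact Finset.sum_congr rfl fun i _ => by rw [h i]

theorem dsh_add (d d' : Fin n → ℕ) (k : Fin n) : dsh (d + d') k = dsh d k + dsh d' k := by
  simp [dsh, add_mul, Finset.sum_add_distrib]

theorem dsh_single (i k : Fin n) : dsh (Pi.single i 1) k = cartD n i k := by
  simp [dsh, Pi.single_apply]

theorem prE_one (c : Fin n → ℂ) (k : Fin n) : prE c k 1 = 0 := by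
  rw [← wordMon_nil ℂ n, prE_word]
  rfl

theorem prE_fgen_mul (c : Fin n → ℂ) (k j : Fin n) (w : List (Fin n)) :
    prE c k (fgen ℂ n j * wordMon ℂ n w) = fgen ℂ n j * prE c k (wordMon ℂ n w) +
      (if j = k then (c k - (wsh w k : ℂ)) • wordMon ℂ n w else 0) := by
  rw [← wordMon_cons, prE_word, prE_word]
  rfl

theorem kf1_mul_word_word (c : Fin n → ℂ) (k : Fin n) (x y : List (Fin n)) :
    prE c k (wordMon ℂ n x * wordMon ℂ n y) = wordMon ℂ n x * prE c k (wordMon ℂ n y) +
      prE (fun i => c i - (wsh y i : ℂ)) k (wordMon ℂ n x) * wordMon ℂ n y := by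
  induction x with
  | nil => simp [wordMon_nil, prE_one]
  | cons j x ih =>
    rw [wordMon_cons, mul_assoc, ← wordMon_append, prE_fgen_mul, wordMon_append, ih, prE_fgen_mul,
      wsh_append]
    split_ifs with hjk
    · simp only [mul_add, add_mul, smul_mul_assoc, mul_assoc, Int.cast_add]
      rw [add_assoc]
      congr 2
      congr 1
      ring
    · simp only [mul_add, mul_assoc, add_zero]

/-- twisted Leibniz rule -/
theorem prE_mul_word (c : Fin n → ℂ) (k : Fin n) (a : FA n) (y : List (Fin n)) :
    prE c k (a * wordMon ℂ n y) = a * prE c k (wordMon ℂ n y) +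
      prE (fun i => c i - (wsh y i : ℂ)) k a * wordMon ℂ n y := by
  induction a using fk_induction with
  | hw w => exact kf1_mul_word_word c k w y
  | h0 => simp
  | hadd a b ha hb =>
    rw [add_mul, map_add, ha, hb, map_add, add_mul, add_mul]
    abel
  | hsmul r a ha =>
    rw [smul_mul_assoc, map_smul, ha, map_smul, smul_mul_assoc, smul_mul_assoc, smul_add]

theorem prE_mul_deg (c : Fin n → ℂ) (k : Fin n) (a x : FA n) (d : Fin n → ℕ) (hx : x ∈ degSpan d) :
    prE c k (a * x) = a * prE c k x + prE (fun i => c i - (dsh d i : ℂ)) k a * x := by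
  unfold degSpan at hx
  induction hx using Submodule.span_induction with
  | mem x hx =>
    obtain ⟨w, hw, rfl⟩ := hx
    rw [prE_mul_word]
    have : (fun i => c i - (wsh w i : ℂ)) = fun i => c i - (dsh d i : ℂ) := by
      funext i
      rw [wsh_eq_dsh w d hw]
    rw [this]
  | zero => simp
  | add x y _ _ hx hy =>
    rw [mul_add, map_add, hx, hy, map_add, mul_add, mul_add]
    abel
  | smul r x _ hx =>
    rw [mul_smul_comm, map_smul, hx, map_smul, mul_smul_comm, mul_smul_comm, smul_add]

/-- affine dependence on the parameter -/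
theorem prE_shift (c : Fin n → ℂ) (t : ℂ) (k : Fin n) :
    prE (fun i => c i + t) k = prE c k + t • prD k := by
  apply fk_ext
  intro w
  simp only [prD, LinearMap.add_apply, LinearMap.smul_apply, LinearMap.sub_apply, prE_word]
  induction w with
  | nil => simp [prEWord]
  | cons j w ih =>
    simp only [prEWord]
    rw [ih]
    split_ifs with hjk
    · simp only [mul_add, mul_sub, mul_smul_comm]
      module
    · simp only [mul_add, mul_sub, mul_smul_comm, add_zero]

theorem kf1_word_deg (w : List (Fin n)) : wordMon ℂ n w ∈ degSpan (fun i => w.count i) :=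
  Submodule.subset_span ⟨w, fun _ => rfl, rfl⟩

theorem kf1_word_degOf (w : List (Fin n)) (d : Fin n → ℕ) (h : ∀ i, w.count i = d i) :
    wordMon ℂ n w ∈ degSpan d :=
  Submodule.subset_span ⟨w, h, rfl⟩

theorem kf1_degSpan_mul (d d' : Fin n → ℕ) (a a' : FA n) (ha : a ∈ degSpan d) (ha' : a' ∈ degSpan d') :
    a * a' ∈ degSpan (d + d') := by
  unfold degSpan at ha
  induction ha using Submodule.span_induction with
  | mem x hx =>
    obtain ⟨w, hw, rfl⟩ := hx
    unfold degSpan at ha'
    induction ha' using Submodule.span_induction with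
    | mem y hy =>
      obtain ⟨w', hw', rfl⟩ := hy
      rw [← wordMon_append]
      refine kf1_word_degOf _ _ fun i => ?_
      rw [List.count_append, hw, hw']
      rfl
    | zero => rw [mul_zero]; exact Submodule.zero_mem _
    | add x y _ _ hx hy => rw [mul_add]; exact Submodule.add_mem _ hx hy
    | smul r x _ hx => rw [mul_smul_comm]; exact Submodule.smul_mem _ _ hx
  | zero => rw [zero_mul]; exact Submodule.zero_mem _
  | add x y _ _ hx hy => rw [add_mul]; exact Submodule.add_mem _ hx hy
  | smul r x _ hx => rw [smul_mul_assoc]; exact Submodule.smul_mem _ _ hx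

theorem kf1_fgen_deg (j : Fin n) : fgen ℂ n j ∈ degSpan (Pi.single j 1 : Fin n → ℕ) := by
  rw [← wordMon_singleton]
  refine kf1_word_degOf _ _ fun i => ?_
  by_cases h : i = j
  · subst h; simp
  · rw [Pi.single_apply, if_neg h, List.count_singleton]
    simp [Ne.symm h]

theorem kf1_beq_ite (i j : Fin n) :
    (if (j == i) = true then 1 else 0 : ℕ) = if i = j then 1 else 0 := by
  by_cases h : i = j
  · subst h; simp
  · simp [h, Ne.symm h]

theorem kf1_prEWord_deg (c : Fin n → ℂ) (k : Fin n) (w : List (Fin n)) :
    prEWord c k w ∈ degSpan ((fun i => w.count i) - Pi.single k 1) ∧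
      (w.count k = 0 → prEWord c k w = 0) := by
  induction w with
  | nil => exact ⟨Submodule.zero_mem _, fun _ => rfl⟩
  | cons j w ih =>
    obtain ⟨ih1, ih2⟩ := ih
    constructor
    · simp only [prEWord]
      refine Submodule.add_mem _ ?_ ?_
      · by_cases h0 : w.count k = 0
        · rw [ih2 h0, mul_zero]; exact Submodule.zero_mem _
        · have := kf1_degSpan_mul _ _ _ _ (kf1_fgen_deg j) ih1
          convert this using 2
          funext i
          simp only [Pi.sub_apply, Pi.add_apply, List.count_cons, Pi.single_apply]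
          by_cases hik : i = k
          · subst hik
            simp only [if_true]
            rw [kf1_beq_ite]
            omega
          · simp only [if_neg hik]
            rw [kf1_beq_ite]
            omega
      · split_ifs with hjk
        · subst hjk
          refine Submodule.smul_mem _ _ (kf1_word_degOf _ _ fun i => ?_)
          simp only [Pi.sub_apply, List.count_cons, Pi.single_apply]
          rw [kf1_beq_ite]
          omega
        · exact Submodule.zero_mem _
    · intro h0
      rw [List.count_cons] at h0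
      have h1 : w.count k = 0 := by omega
      have h2 : j ≠ k := by
        rintro rfl
        simp at h0
      simp only [prEWord]
      rw [ih2 h1, if_neg h2, mul_zero, add_zero]

theorem prE_deg (c : Fin n → ℂ) (k : Fin n) (d : Fin n → ℕ) (a : FA n) (ha : a ∈ degSpan d) :
    prE c k a ∈ degSpan (d - Pi.single k 1) ∧ (d k = 0 → prE c k a = 0) := by
  unfold degSpan at ha
  induction ha using Submodule.span_induction with
  | mem x hx =>
    obtain ⟨w, hw, rfl⟩ := hx
    have hd : (fun i => w.count i) = d := funext hw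
    subst hd
    rw [prE_word]
    exact kf1_prEWord_deg c k w
  | zero => rw [map_zero]; exact ⟨Submodule.zero_mem _, fun _ => rfl⟩
  | add x y _ _ hx hy =>
    rw [map_add]
    exact ⟨Submodule.add_mem _ hx.1 hy.1, fun h => by rw [hx.2 h, hy.2 h, add_zero]⟩
  | smul r x _ hx =>
    rw [map_smul]
    exact ⟨Submodule.smul_mem _ _ hx.1, fun h => by rw [hx.2 h, smul_zero]⟩

theorem kf1_wsh_replicate (m : ℕ) (i k : Fin n) : wsh (List.replicate m i) k = m * cartD n i k := by
  simp [wsh]

theorem prE_pow (hn : 2 ≤ n) (c : Fin n → ℂ) (i k : Fin n) (m : ℕ) :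
    prE c k (fgen ℂ n i ^ m) =
      if i = k then ((m : ℂ) * (c k - ((m : ℂ) - 1))) • fgen ℂ n i ^ (m - 1) else 0 := by
  induction m with
  | zero => simp [prE_one]
  | succ m ih =>
    rw [pow_succ', ← wordMon_replicate, prE_fgen_mul, wordMon_replicate, ih, kf1_wsh_replicate]
    split_ifs with hik
    · subst hik
      rw [cartD_self hn, mul_smul_comm, Nat.add_sub_cancel]
      rcases m with _ | m
      · simp
      · rw [Nat.add_sub_cancel, ← pow_succ', ← add_smul]
        congr 1
        push_cast
        ring
    · simp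

/-- the `sl₂` formula -/
theorem prE_pow_mul (hn : 2 ≤ n) (c : Fin n → ℂ) (i : Fin n) (m : ℕ) (d : Fin n → ℕ) (a : FA n)
    (ha : a ∈ degSpan d) :
    prE c i (fgen ℂ n i ^ m * a) = fgen ℂ n i ^ m * prE c i a +
      ((m : ℂ) * (c i - (dsh d i : ℂ) - ((m : ℂ) - 1))) • (fgen ℂ n i ^ (m - 1) * a) := by
  rw [prE_mul_deg c i _ a d ha, prE_pow hn, if_pos rfl, smul_mul_assoc]

/-! ## Serre elements -/

theorem kf1_serre_adj (i j : Fin n) (h : adjD n i j) :
    serreElt ℂ n i j = wordMon ℂ n [i, i, j] - (2 : ℂ) • wordMon ℂ n [i, j, i] + wordMon ℂ n [j, i, i] := by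
  simp only [serreElt, if_pos h, wordMon_cons, wordMon_nil, mul_one, mul_assoc, two_smul, two_mul]

theorem kf1_serre_nonadj (i j : Fin n) (h : ¬ adjD n i j) :
    serreElt ℂ n i j = wordMon ℂ n [i, j] - wordMon ℂ n [j, i] := by
  simp only [serreElt, if_neg h, wordMon_cons, wordMon_nil, mul_one]

theorem kf1_serre_deg (i j : Fin n) : ∃ d : Fin n → ℕ, serreElt ℂ n i j ∈ degSpan d := by
  by_cases h : adjD n i j
  · refine ⟨fun t => [i, i, j].count t, ?_⟩
    rw [kf1_serre_adj i j h]
    refine Submodule.add_mem _ (Submodule.sub_mem _ (kf1_word_degOf _ _ fun _ => rfl)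
      (Submodule.smul_mem _ _ (kf1_word_degOf _ _ fun t => ?_))) (kf1_word_degOf _ _ fun t => ?_)
    · simp only [List.count_cons, List.count_nil]; ring
    · simp only [List.count_cons, List.count_nil]; ring
  · refine ⟨fun t => [i, j].count t, ?_⟩
    rw [kf1_serre_nonadj i j h]
    refine Submodule.sub_mem _ (kf1_word_degOf _ _ fun _ => rfl) (kf1_word_degOf _ _ fun t => ?_)
    simp only [List.count_cons, List.count_nil]; ring

theorem prE_serre (hn : 2 ≤ n) (c : Fin n → ℂ) (k i j : Fin n) : prE c k (serreElt ℂ n i j) = 0 := by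
  by_cases h : adjD n i j
  · have hij : i ≠ j := adjD_ne i j h
    have c1 := cartD_self hn i
    have c2 := cartD_self hn j
    have c3 := cartD_adj hn i j h
    have c4 := cartD_adj hn j i (adjD_symm' i j h)
    rw [kf1_serre_adj i j h]
    simp only [map_add, map_sub, map_smul, prE_word]
    simp only [prEWord, wsh_cons, wsh_nil, wordMon_cons,
      wordMon_nil, mul_zero, zero_add, add_zero, mul_one]
    by_cases hki : i = k
    · subst hki
      simp only [if_true, if_neg hij.symm, c1, c4, mul_zero, zero_add, add_zero, mul_add, mul_smul_comm,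
        mul_one]
      push_cast
      module
    · by_cases hkj : j = k
      · subst hkj
        simp only [if_true, if_neg hij, c2, c3, mul_zero, zero_add, add_zero, mul_add, mul_smul_comm,
          mul_one]
        push_cast
        module
      · simp only [if_neg hki, if_neg hkj, mul_zero, zero_add, add_zero, smul_zero, sub_zero]
  · rw [kf1_serre_nonadj i j h]
    by_cases hij : i = j
    · subst hij
      rw [sub_self, map_zero]
    · have c3 := cartD_nonadj hn i j hij h
      have c4 := cartD_nonadj hn j i (Ne.symm hij) (fun h' => h (adjD_symm' j i h'))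
      simp only [map_sub, prE_word]
      simp only [prEWord, wsh_cons, wsh_nil, wordMon_cons,
        wordMon_nil, mul_zero, zero_add, add_zero, mul_one]
      by_cases hki : i = k
      · subst hki
        simp only [if_true, if_neg (Ne.symm hij), c4, mul_zero, zero_add, add_zero, mul_smul_comm,
          mul_one]
        push_cast
        module
      · by_cases hkj : j = k
        · subst hkj
          simp only [if_true, if_neg hij, c3, mul_zero, zero_add, add_zero, mul_smul_comm,
            mul_one]
          push_cast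
          module
        · simp only [if_neg hki, if_neg hkj, mul_zero, zero_add, add_zero, sub_zero]

theorem serreSpan_mul_right (y : FA n) (x : FA n) (hx : x ∈ serreSpan ℂ n) : x * y ∈ serreSpan ℂ n := by
  unfold serreSpan at hx ⊢
  induction hx using Submodule.span_induction with
  | mem x hx =>
    obtain ⟨u, v, i, j, rfl⟩ := hx
    exact Submodule.subset_span ⟨u, v * y, i, j, by rw [mul_assoc]⟩
  | zero => rw [zero_mul]; exact Submodule.zero_mem _
  | add x y _ _ hx hy => rw [add_mul]; exact Submodule.add_mem _ hx hy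
  | smul r x _ hx => rw [smul_mul_assoc]; exact Submodule.smul_mem _ _ hx

theorem kf1_serre_mem (u v : FA n) (i j : Fin n) : u * serreElt ℂ n i j * v ∈ serreSpan ℂ n :=
  Submodule.subset_span ⟨u, v, i, j, rfl⟩

theorem prE_serreSpan (hn : 2 ≤ n) (c : Fin n → ℂ) (k : Fin n) (a : FA n) (ha : a ∈ serreSpan ℂ n) :
    prE c k a ∈ serreSpan ℂ n := by
  unfold serreSpan at ha
  induction ha using Submodule.span_induction with
  | mem x hx =>
    obtain ⟨u, v, i, j, rfl⟩ := hx
    induction v using fk_induction with
    | hw w =>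
      obtain ⟨d, hd⟩ := kf1_serre_deg i j
      rw [prE_mul_word, prE_mul_deg _ k u _ d hd, prE_serre hn, mul_zero, zero_add]
      exact Submodule.add_mem _ (kf1_serre_mem _ _ _ _) (kf1_serre_mem _ _ _ _)
    | h0 => rw [mul_zero, map_zero]; exact Submodule.zero_mem _
    | hadd x y hx hy => rw [mul_add, map_add]; exact Submodule.add_mem _ hx hy
    | hsmul r x hx => rw [mul_smul_comm, map_smul]; exact Submodule.smul_mem _ _ hx
  | zero => rw [map_zero]; exact Submodule.zero_mem _
  | add x y _ _ hx hy => rw [map_add]; exact Submodule.add_mem _ hx hy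
  | smul r x _ hx => rw [map_smul]; exact Submodule.smul_mem _ _ hx

end Claimed.Agent.R282
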