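import Claimed.Agent.R282.Rep.K.Free1

/-!
# Row 282, Rep/K, LEAF L-K-FREE2 : the left ideal `presI b`: stability under `E_k`, local nilpotency, dominance; homogeneous components (statements by helper103), ~900 lines
(may be split between two provers: part A = `presI_*`, `casqD_ne`; part B = `degPart_*`, `lenSpan_*`)

Part A.  Cite `Free1` freely.
* `prE_presI`: `serreSpan` by `prE_serreSpan`.  `u * f_i^(b_i+1)`: `prE_mul_deg` (`f_i^(b_i+1) ∈ degSpan ((b_i+1) • single i)`) gives `u * E(f_i^(b_i+1)) + E'(u) * f_i^(b_i+1)`, and `E_k (f_i^(b_i+1)) = 0` by `prE_pow` (`(b+1)(b - b) = 0`).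
* `presI_nilp`: induction on words.  `a = 1`: `m = b i + 1`.  `a = f_j w`, `f_i^m w ∈ presI`:  `j = i`: `m` works (`f_i^m f_i w = f_i f_i^m w`).  `j ≠ i` not adjacent: `f_i^m f_j ≡ f_j f_i^m` mod Serre (two sided).
   adjacent: modulo the two sided Serre ideal  `f_i^(m+1) f_j ≡ (m+1) f_i f_j f_i^m - m f_j f_i^(m+1)`  (induction on `m` from `f_i² f_j ≡ 2 f_i f_j f_i - f_j f_i²`); so `m + 1` works.  Linear combinations: take the max (`f_i^(m+m') a = f_i^m' (f_i^m a)`, left ideal).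
* `presI_dominant`: let `m` be minimal with `f_i^m a ∈ presI` (`Nat.find`), `m ≥ 1`.  Apply `prE b i` (`prE_presI`) and `prE_pow_mul`: `m (b_i - dsh d i - (m-1)) • f_i^(m-1) a ∈ presI`, so `b_i - dsh d i = m - 1 ≥ 0`.
* `casqD_ne`: `casqD = ∑ d_i (2 b_i + 2 - dsh d i)`, every factor is `≥ b_i + 2 > 0`; cast of a positive integer.
Part B.  Everything on the basis of words (`degPart_word`).  `degPart d` maps `u θ w` (words `u, w`) to itself or to `0`, since `θ = serreElt` is homogeneous.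
-/

set_option autoImplicit false

namespace Claimed.Agent.R282

open Claims.C0456 Matrix

variable {n : ℕ}

/-! ## Part A -/

theorem leftI_mul_left (b : Fin n → ℕ) (u a : FA n) (ha : a ∈ leftI b) : u * a ∈ leftI b := by
  induction ha using Submodule.span_induction with
  | mem x hx =>
    obtain ⟨u', i, rfl⟩ := hx
    rw [← mul_assoc]
    exact Submodule.subset_span ⟨u * u', i, rfl⟩
  | zero => rw [mul_zero]; exact Submodule.zero_mem _
  | add x y _ _ hx hy => rw [mul_add]; exact Submodule.add_mem _ hx hy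
  | smul c x _ hx => rw [mul_smul_comm]; exact Submodule.smul_mem _ _ hx

theorem kfa_serre_le (b : Fin n → ℕ) : serreSpan ℂ n ≤ presI b := le_sup_left

theorem kfa_leftI_le (b : Fin n → ℕ) : leftI b ≤ presI b := le_sup_right

theorem presI_mul_left (b : Fin n → ℕ) (u a : FA n) (ha : a ∈ presI b) : u * a ∈ presI b := by
  obtain ⟨s, hs, l, hl, rfl⟩ := Submodule.mem_sup.1 ha
  rw [mul_add]
  exact Submodule.add_mem _ (kfa_serre_le b (k2c_serreSpan_mul_left ℂ n u hs))
    (kfa_leftI_le b (leftI_mul_left b u l hl))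

theorem kfa_fgen_pow_deg (i : Fin n) (m : ℕ) : fgen ℂ n i ^ m ∈ degSpan (m • Pi.single i 1) := by
  refine Submodule.subset_span ⟨List.replicate m i, ?_, (wordMon_replicate ℂ n m i).symm⟩
  intro j
  rw [List.count_replicate]
  by_cases h : i = j
  · subst h; simp
  · have h' : ¬ (i == j) = true := by simpa using h
    simp [h', Ne.symm h]

theorem prE_presI (hn : 2 ≤ n) (b : Fin n → ℕ) (k : Fin n) (a : FA n) (ha : a ∈ presI b) :
    prE (fun i => (b i : ℂ)) k a ∈ presI b := by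
  obtain ⟨s, hs, l, hl, rfl⟩ := Submodule.mem_sup.1 ha
  rw [map_add]
  refine Submodule.add_mem _ (kfa_serre_le b (prE_serreSpan hn _ k s hs)) ?_
  clear ha
  induction hl using Submodule.span_induction with
  | mem x hx =>
    obtain ⟨u, i, rfl⟩ := hx
    rw [prE_mul_deg _ k u _ _ (kfa_fgen_pow_deg i (b i + 1)), prE_pow hn]
    have h0 : (if i = k then (((b i + 1 : ℕ) : ℂ) * ((b k : ℂ) - (((b i + 1 : ℕ) : ℂ) - 1))) •
        fgen ℂ n i ^ (b i + 1 - 1) else 0) = 0 := by
      split_ifs with h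
      · subst h
        have : ((b i : ℂ) - (((b i + 1 : ℕ) : ℂ) - 1)) = 0 := by push_cast; ring
        rw [this, mul_zero, zero_smul]
      · rfl
    rw [h0, mul_zero, zero_add]
    exact kfa_leftI_le b (Submodule.subset_span ⟨_, i, rfl⟩)
  | zero => rw [map_zero]; exact Submodule.zero_mem _
  | add x y _ _ hx hy => rw [map_add]; exact Submodule.add_mem _ hx hy
  | smul c x _ hx => rw [map_smul]; exact Submodule.smul_mem _ _ hx

/-- the basic relation `f_i² f_j ≡ (γ f_i f_j + δ f_j f_i) f_i` -/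
theorem kfa_base (i j : Fin n) : ∃ γ δ : ℂ,
    fgen ℂ n i * fgen ℂ n i * fgen ℂ n j -
      (γ • (fgen ℂ n i * fgen ℂ n j) + δ • (fgen ℂ n j * fgen ℂ n i)) * fgen ℂ n i ∈ serreSpan ℂ n := by
  by_cases h : adjD n i j
  · refine ⟨2, -1, ?_⟩
    have : fgen ℂ n i * fgen ℂ n i * fgen ℂ n j -
      ((2 : ℂ) • (fgen ℂ n i * fgen ℂ n j) + (-1 : ℂ) • (fgen ℂ n j * fgen ℂ n i)) * fgen ℂ n i =
        1 * serreElt ℂ n i j * 1 := by
      rw [serreElt, if_pos h, two_smul, neg_one_smul]
      noncomm_ring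
    rw [this]
    exact Submodule.subset_span ⟨1, 1, i, j, rfl⟩
  · refine ⟨1, 0, ?_⟩
    have : fgen ℂ n i * fgen ℂ n i * fgen ℂ n j -
      ((1 : ℂ) • (fgen ℂ n i * fgen ℂ n j) + (0 : ℂ) • (fgen ℂ n j * fgen ℂ n i)) * fgen ℂ n i =
        fgen ℂ n i * serreElt ℂ n i j * 1 := by
      rw [serreElt, if_neg h, one_smul, zero_smul]
      noncomm_ring
    rw [this]
    exact Submodule.subset_span ⟨_, 1, i, j, rfl⟩

/-- `f_i^(m+1) f_j ≡ (α f_i f_j + β f_j f_i) f_i^m` -/
theorem kfa_comm_pow (i j : Fin n) (m : ℕ) : ∃ α β : ℂ,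
    fgen ℂ n i ^ (m + 1) * fgen ℂ n j -
      (α • (fgen ℂ n i * fgen ℂ n j) + β • (fgen ℂ n j * fgen ℂ n i)) * fgen ℂ n i ^ m ∈
        serreSpan ℂ n := by
  induction m with
  | zero =>
    refine ⟨1, 0, ?_⟩
    simp
  | succ m ih =>
    obtain ⟨α, β, h⟩ := ih
    obtain ⟨γ, δ, h2⟩ := kfa_base i j
    refine ⟨α * γ + β, α * δ, ?_⟩
    have h3 := k2c_serreSpan_mul_left ℂ n (fgen ℂ n i) h
    have h4 := Submodule.smul_mem _ α (serreSpan_mul_right (fgen ℂ n i ^ m) _ h2)
    have := Submodule.add_mem _ h3 h4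
    convert this using 1
    simp only [pow_succ']
    generalize fgen ℂ n i ^ m = P
    simp only [mul_sub, sub_mul, mul_add, add_mul, smul_mul_assoc, mul_smul_comm, smul_sub, smul_add,
      mul_assoc]
    module

theorem kfa_nilp_word (b : Fin n → ℕ) (i : Fin n) (w : List (Fin n)) :
    ∃ m : ℕ, fgen ℂ n i ^ m * wordMon ℂ n w ∈ presI b := by
  induction w with
  | nil =>
    refine ⟨b i + 1, ?_⟩
    rw [wordMon_nil, mul_one]
    exact kfa_leftI_le b (Submodule.subset_span ⟨1, i, (one_mul _).symm⟩)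
  | cons j w ih =>
    obtain ⟨m, hm⟩ := ih
    obtain ⟨α, β, h⟩ := kfa_comm_pow i j m
    refine ⟨m + 1, ?_⟩
    rw [wordMon_cons]
    have h1 := kfa_serre_le b (serreSpan_mul_right (wordMon ℂ n w) _ h)
    have h2 := presI_mul_left b
      (α • (fgen ℂ n i * fgen ℂ n j) + β • (fgen ℂ n j * fgen ℂ n i)) _ hm
    have := Submodule.add_mem _ h1 h2
    convert this using 1
    rw [sub_mul, mul_assoc, mul_assoc _ (fgen ℂ n i ^ m)]
    abel

/-- `f_i` is locally nilpotent modulo `presI b` -/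
theorem presI_nilp (hn : 2 ≤ n) (b : Fin n → ℕ) (i : Fin n) (a : FA n) :
    ∃ m : ℕ, fgen ℂ n i ^ m * a ∈ presI b := by
  induction a using fk_induction with
  | hw w => exact kfa_nilp_word b i w
  | h0 => exact ⟨0, by rw [mul_zero]; exact Submodule.zero_mem _⟩
  | hadd x y hx hy =>
    obtain ⟨m₁, h₁⟩ := hx
    obtain ⟨m₂, h₂⟩ := hy
    refine ⟨m₁ + m₂, ?_⟩
    rw [mul_add]
    refine Submodule.add_mem _ ?_ ?_
    · rw [add_comm, pow_add, mul_assoc]
      exact presI_mul_left b _ _ h₁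
    · rw [pow_add, mul_assoc]
      exact presI_mul_left b _ _ h₂
  | hsmul r x hx =>
    obtain ⟨m, h⟩ := hx
    exact ⟨m, by rw [mul_smul_comm]; exact Submodule.smul_mem _ _ h⟩

/-- the weight of a vector which is primitive modulo `presI b` is dominant -/
theorem presI_dominant (hn : 2 ≤ n) (b : Fin n → ℕ) (i : Fin n) (d : Fin n → ℕ) (a : FA n)
    (ha : a ∈ degSpan d) (hna : a ∉ presI b) (hE : prE (fun i => (b i : ℂ)) i a ∈ presI b) :
    dsh d i ≤ (b i : ℤ) := by
  classical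
  have hex := presI_nilp hn b i a
  obtain ⟨m, hm, hmin⟩ : ∃ m, fgen ℂ n i ^ (m + 1) * a ∈ presI b ∧ fgen ℂ n i ^ m * a ∉ presI b := by
    have h1 := Nat.find_spec hex
    have h0 : Nat.find hex ≠ 0 := by
      intro h0
      rw [h0, pow_zero, one_mul] at h1
      exact hna h1
    obtain ⟨m, hm⟩ := Nat.exists_eq_succ_of_ne_zero h0
    refine ⟨m, ?_, Nat.find_min hex (by omega)⟩
    rw [hm] at h1
    exact h1
  have h2 := prE_presI hn b i _ hm
  rw [prE_pow_mul hn _ i (m + 1) d a ha] at h2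
  have h3 := (Submodule.add_mem_iff_right _ (presI_mul_left b (fgen ℂ n i ^ (m + 1)) _ hE)).1 h2
  rw [Nat.add_sub_cancel] at h3
  have hc : (((m + 1 : ℕ) : ℂ) * ((b i : ℂ) - (dsh d i : ℂ) - (((m + 1 : ℕ) : ℂ) - 1))) = 0 := by
    by_contra hc
    exact hmin ((Submodule.smul_mem_iff _ hc).1 h3)
  have hc2 : ((b i : ℂ) - (dsh d i : ℂ) - (((m + 1 : ℕ) : ℂ) - 1)) = 0 := by
    rcases mul_eq_zero.1 hc with h | h
    · exact absurd h (Nat.cast_ne_zero.2 (Nat.succ_ne_zero m))
    · exact h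
  have hz : ((b i : ℤ) - dsh d i - m : ℤ) = 0 := by
    have : (((b i : ℤ) - dsh d i - m : ℤ) : ℂ) = 0 := by
      push_cast
      push_cast at hc2
      linear_combination hc2
    exact_mod_cast this
  omega

theorem casqD_ne (b : Fin n → ℕ) (d : Fin n → ℕ) (hd : d ≠ 0) (hdom : ∀ i, dsh d i ≤ (b i : ℤ)) :
    casqD (fun i => (b i : ℂ)) d ≠ 0 := by
  have e : casqD (fun i => (b i : ℂ)) d =
      ((∑ i, (d i : ℤ) * (2 * (b i : ℤ) + 2 - dsh d i) : ℤ) : ℂ) := by
    unfold casqD
    push_cast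
    rfl
  rw [e]
  have hpos : 0 < ∑ i, (d i : ℤ) * (2 * (b i : ℤ) + 2 - dsh d i) := by
    obtain ⟨i, hi⟩ := Function.ne_iff.1 hd
    refine Finset.sum_pos' (fun j _ => ?_) ⟨i, Finset.mem_univ _, ?_⟩
    · have := hdom j
      have h1 : (0 : ℤ) ≤ d j := Int.natCast_nonneg _
      have h2 : (0 : ℤ) ≤ b j := Int.natCast_nonneg _
      exact mul_nonneg h1 (by omega)
    · have := hdom i
      have h1 : (0 : ℤ) < d i := by
        have : d i ≠ 0 := hi
        omega
      have h2 : (0 : ℤ) ≤ b i := Int.natCast_nonneg _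
      exact mul_pos h1 (by omega)
  exact_mod_cast hpos.ne'

/-- `casqD` is polynomial (affine) along the line `c + t` -/
theorem casqD_shift (c : Fin n → ℂ) (d : Fin n → ℕ) (t : ℂ) :
    casqD (fun i => c i + t) d = casqD c d + t * (2 * ∑ i, (d i : ℂ)) := by
  unfold casqD
  rw [Finset.mul_sum, Finset.mul_sum, ← Finset.sum_add_distrib]
  refine Finset.sum_congr rfl fun i _ => ?_
  ring

/-! ## Part B : homogeneous components -/

theorem kfb_word_mem (w : List (Fin n)) (d : Fin n → ℕ) (h : ∀ i, w.count i = d i) :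
    wordMon ℂ n w ∈ degSpan d :=
  Submodule.subset_span ⟨w, h, rfl⟩

theorem degPart_mem (d : Fin n → ℕ) (a : FA n) : degPart d a ∈ degSpan d := by
  induction a using fk_induction with
  | hw w =>
    rw [degPart_word]
    split_ifs with h
    · exact kfb_word_mem w d h
    · exact Submodule.zero_mem _
  | h0 => rw [map_zero]; exact Submodule.zero_mem _
  | hadd x y hx hy => rw [map_add]; exact Submodule.add_mem _ hx hy
  | hsmul r x hx => rw [map_smul]; exact Submodule.smul_mem _ _ hx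

theorem degPart_of_mem (d : Fin n → ℕ) (a : FA n) (ha : a ∈ degSpan d) : degPart d a = a := by
  induction ha using Submodule.span_induction with
  | mem x hx =>
    obtain ⟨w, hw, rfl⟩ := hx
    rw [degPart_word, if_pos hw]
  | zero => rw [map_zero]
  | add x y _ _ hx hy => rw [map_add, hx, hy]
  | smul c x _ hx => rw [map_smul, hx]

theorem degPart_of_mem_ne (d d' : Fin n → ℕ) (hdd : d' ≠ d) (a : FA n) (ha : a ∈ degSpan d') :
    degPart d a = 0 := by
  induction ha using Submodule.span_induction with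
  | mem x hx =>
    obtain ⟨w, hw, rfl⟩ := hx
    rw [degPart_word, if_neg]
    intro h
    exact hdd (funext fun i => (hw i).symm.trans (h i))
  | zero => rw [map_zero]
  | add x y _ _ hx hy => rw [map_add, hx, hy, add_zero]
  | smul c x _ hx => rw [map_smul, hx, smul_zero]

theorem kfb_sum_degPart (a : FA n) :
    ∃ F : Finset (Fin n → ℕ), ∀ F', F ⊆ F' → a = ∑ d ∈ F', degPart d a := by
  classical
  induction a using fk_induction with
  | hw w =>
    refine ⟨{fun i => w.count i}, fun F' hF' => ?_⟩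
    rw [Finset.sum_eq_single (fun i => w.count i)]
    · rw [degPart_word, if_pos (fun _ => rfl)]
    · intro d _ hd
      rw [degPart_word, if_neg]
      intro h
      exact hd (funext fun i => (h i).symm)
    · intro h
      exact absurd (hF' (Finset.mem_singleton_self _)) h
  | h0 => exact ⟨∅, fun F' _ => by simp⟩
  | hadd x y hx hy =>
    obtain ⟨F₁, h₁⟩ := hx
    obtain ⟨F₂, h₂⟩ := hy
    refine ⟨F₁ ∪ F₂, fun F' hF' => ?_⟩
    simp only [map_add, Finset.sum_add_distrib]
    rw [← h₁ F' (Finset.union_subset_left hF'), ← h₂ F' (Finset.union_subset_right hF')]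
  | hsmul r x hx =>
    obtain ⟨F, h⟩ := hx
    refine ⟨F, fun F' hF' => ?_⟩
    simp only [map_smul]
    rw [← Finset.smul_sum, ← h F' hF']

/-- every element is the finite sum of its homogeneous components -/
theorem sum_degPart (a : FA n) : ∃ F : Finset (Fin n → ℕ), a = ∑ d ∈ F, degPart d a := by
  obtain ⟨F, h⟩ := kfb_sum_degPart a
  exact ⟨F, h F (Finset.Subset.refl _)⟩

theorem degSpan_zero (a : FA n) (ha : a ∈ degSpan (0 : Fin n → ℕ)) : ∃ z : ℂ, a = z • 1 := by
  induction ha using Submodule.span_induction with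
  | mem x hx =>
    obtain ⟨w, hw, rfl⟩ := hx
    have : w = [] := by
      refine List.eq_nil_iff_forall_not_mem.2 fun i hi => ?_
      exact (List.count_pos_iff.2 hi).ne' (hw i)
    rw [this, wordMon_nil]
    exact ⟨1, (one_smul _ _).symm⟩
  | zero => exact ⟨0, (zero_smul _ _).symm⟩
  | add x y _ _ hx hy =>
    obtain ⟨z₁, rfl⟩ := hx
    obtain ⟨z₂, rfl⟩ := hy
    exact ⟨z₁ + z₂, (add_smul _ _ _).symm⟩
  | smul c x _ hx =>
    obtain ⟨z, rfl⟩ := hx
    exact ⟨c * z, (mul_smul _ _ _).symm⟩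

theorem degSpan_mul (d d' : Fin n → ℕ) (a a' : FA n) (ha : a ∈ degSpan d) (ha' : a' ∈ degSpan d') :
    a * a' ∈ degSpan (d + d') := by
  induction ha using Submodule.span_induction with
  | mem x hx =>
    obtain ⟨w, hw, rfl⟩ := hx
    induction ha' using Submodule.span_induction with
    | mem y hy =>
      obtain ⟨w', hw', rfl⟩ := hy
      rw [← wordMon_append]
      refine kfb_word_mem _ _ fun i => ?_
      rw [List.count_append, hw i, hw' i]
      rfl
    | zero => rw [mul_zero]; exact Submodule.zero_mem _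
    | add x y _ _ hx hy => rw [mul_add]; exact Submodule.add_mem _ hx hy
    | smul c x _ hx => rw [mul_smul_comm]; exact Submodule.smul_mem _ _ hx
  | zero => rw [zero_mul]; exact Submodule.zero_mem _
  | add x y _ _ hx hy => rw [add_mul]; exact Submodule.add_mem _ hx hy
  | smul c x _ hx => rw [smul_mul_assoc]; exact Submodule.smul_mem _ _ hx

theorem fgen_pow_deg (i : Fin n) (m : ℕ) : fgen ℂ n i ^ m ∈ degSpan (m • Pi.single i 1) :=
  kfa_fgen_pow_deg i m

theorem wordMon_deg (w : List (Fin n)) : wordMon ℂ n w ∈ degSpan (fun i => w.count i) :=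
  kfb_word_mem w _ fun _ => rfl

theorem kfb_lenSpan_mono {D D' : ℕ} (h : D ≤ D') : lenSpan n D ≤ lenSpan n D' := by
  refine Submodule.span_mono ?_
  rintro x ⟨w, hw, rfl⟩
  exact ⟨w, hw.trans h, rfl⟩

theorem exists_lenSpan (a : FA n) : ∃ D, a ∈ lenSpan n D := by
  induction a using fk_induction with
  | hw w => exact ⟨w.length, Submodule.subset_span ⟨w, le_rfl, rfl⟩⟩
  | h0 => exact ⟨0, Submodule.zero_mem _⟩
  | hadd x y hx hy =>
    obtain ⟨D₁, h₁⟩ := hx
    obtain ⟨D₂, h₂⟩ := hy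
    exact ⟨max D₁ D₂, Submodule.add_mem _ (kfb_lenSpan_mono (le_max_left _ _) h₁)
      (kfb_lenSpan_mono (le_max_right _ _) h₂)⟩
  | hsmul r x hx =>
    obtain ⟨D, h⟩ := hx
    exact ⟨D, Submodule.smul_mem _ _ h⟩

theorem lenSpan_mono {D D' : ℕ} (h : D ≤ D') : lenSpan n D ≤ lenSpan n D' :=
  kfb_lenSpan_mono h

theorem kfb_length (w : List (Fin n)) : ∑ i, w.count i = w.length := by
  have := Multiset.sum_count_eq_card (s := Finset.univ) (m := (w : Multiset (Fin n)))
    (fun a _ => Finset.mem_univ a)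
  simpa using this

theorem degPart_lenSpan (D : ℕ) (d : Fin n → ℕ) (a : FA n) (ha : a ∈ lenSpan n D) :
    degPart d a ∈ lenSpan n D ∧ (D < ∑ i, d i → degPart d a = 0) := by
  induction ha using Submodule.span_induction with
  | mem x hx =>
    obtain ⟨w, hw, rfl⟩ := hx
    rw [degPart_word]
    split_ifs with h
    · refine ⟨Submodule.subset_span ⟨w, hw, rfl⟩, fun hD => ?_⟩
      have : ∑ i, d i = w.length := by
        rw [← kfb_length]
        exact Finset.sum_congr rfl fun i _ => (h i).symm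
      omega
    · exact ⟨Submodule.zero_mem _, fun _ => rfl⟩
  | zero => rw [map_zero]; exact ⟨Submodule.zero_mem _, fun _ => rfl⟩
  | add x y _ _ hx hy =>
    rw [map_add]
    exact ⟨Submodule.add_mem _ hx.1 hy.1, fun hD => by rw [hx.2 hD, hy.2 hD, add_zero]⟩
  | smul c x _ hx =>
    rw [map_smul]
    exact ⟨Submodule.smul_mem _ _ hx.1, fun hD => by rw [hx.2 hD, smul_zero]⟩

/-- a homogeneous element of a subspace has all its components in the subspace -/
theorem kfb_homog (I : Submodule ℂ (FA n)) (d e : Fin n → ℕ) (x : FA n) (hx : x ∈ I)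
    (he : x ∈ degSpan e) : degPart d x ∈ I := by
  by_cases h : e = d
  · subst h
    rw [degPart_of_mem _ _ he]
    exact hx
  · rw [degPart_of_mem_ne d e h x he]
    exact Submodule.zero_mem _

theorem kfb_fgen_deg (i : Fin n) : fgen ℂ n i ∈ degSpan (Pi.single i 1) := by
  have := kfa_fgen_pow_deg i 1
  rwa [pow_one, one_smul] at this

theorem kfb_serre_deg (i j : Fin n) : ∃ e, serreElt ℂ n i j ∈ degSpan e := by
  have hi := kfb_fgen_deg i
  have hj := kfb_fgen_deg j
  by_cases h : adjD n i j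
  · refine ⟨Pi.single i 1 + Pi.single i 1 + Pi.single j 1, ?_⟩
    rw [serreElt, if_pos h]
    refine Submodule.add_mem _ (Submodule.sub_mem _ (degSpan_mul _ _ _ _ (degSpan_mul _ _ _ _ hi hi) hj) ?_) ?_
    · rw [two_mul]
      have h1 := degSpan_mul _ _ _ _ (degSpan_mul _ _ _ _ hi hj) hi
      have e : (Pi.single i 1 + Pi.single j 1 + Pi.single i 1 : Fin n → ℕ) =
          Pi.single i 1 + Pi.single i 1 + Pi.single j 1 := by abel
      rw [e] at h1
      exact Submodule.add_mem _ h1 h1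
    · have h1 := degSpan_mul _ _ _ _ (degSpan_mul _ _ _ _ hj hi) hi
      have e : (Pi.single j 1 + Pi.single i 1 + Pi.single i 1 : Fin n → ℕ) =
          Pi.single i 1 + Pi.single i 1 + Pi.single j 1 := by abel
      rw [e] at h1
      exact h1
  · refine ⟨Pi.single i 1 + Pi.single j 1, ?_⟩
    rw [serreElt, if_neg h]
    refine Submodule.sub_mem _ (degSpan_mul _ _ _ _ hi hj) ?_
    have h1 := degSpan_mul _ _ _ _ hj hi
    rwa [add_comm] at h1

/-- the components of `u θ v` -/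
theorem kfb_two_sided (I : Submodule ℂ (FA n)) (d e : Fin n → ℕ) (x : FA n) (he : x ∈ degSpan e)
    (hI : ∀ u v, u * x * v ∈ I) (u v : FA n) : degPart d (u * x * v) ∈ I := by
  have := fk_two_sided (I.mkQ ∘ₗ degPart d) x (fun u' v' => by
    show I.mkQ (degPart d (wordMon ℂ n u' * x * wordMon ℂ n v')) = 0
    rw [Submodule.mkQ_apply, Submodule.Quotient.mk_eq_zero]
    exact kfb_homog I d _ _ (hI _ _)
      (degSpan_mul _ _ _ _ (degSpan_mul _ _ _ _ (wordMon_deg u') he) (wordMon_deg v'))) u v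
  have h2 : I.mkQ (degPart d (u * x * v)) = 0 := this
  rwa [Submodule.mkQ_apply, Submodule.Quotient.mk_eq_zero] at h2

theorem kfb_span (I : Submodule ℂ (FA n)) (d : Fin n → ℕ) (s : Set (FA n))
    (h : ∀ x ∈ s, degPart d x ∈ I) (a : FA n) (ha : a ∈ Submodule.span ℂ s) : degPart d a ∈ I := by
  have : Submodule.span ℂ s ≤ I.comap (degPart d) := Submodule.span_le.2 h
  exact this ha

theorem kfb_serre (I : Submodule ℂ (FA n)) (hI : serreSpan ℂ n ≤ I) (d : Fin n → ℕ) (a : FA n)
    (ha : a ∈ serreSpan ℂ n) : degPart d a ∈ I := by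
  refine kfb_span I d _ ?_ a ha
  rintro x ⟨u, v, i, j, rfl⟩
  obtain ⟨e, he⟩ := kfb_serre_deg i j
  exact kfb_two_sided I d e _ he (fun u v => hI (Submodule.subset_span ⟨u, v, i, j, rfl⟩)) u v

theorem degPart_serreSpan (d : Fin n → ℕ) (a : FA n) (ha : a ∈ serreSpan ℂ n) :
    degPart d a ∈ serreSpan ℂ n :=
  kfb_serre _ le_rfl d a ha

theorem kfb_left (I : Submodule ℂ (FA n)) (d e : Fin n → ℕ) (x : FA n) (he : x ∈ degSpan e)
    (hI : ∀ u, u * x ∈ I) (u : FA n) : degPart d (u * x) ∈ I := by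
  have := fk_left (I.mkQ ∘ₗ degPart d) x (fun u' => by
    show I.mkQ (degPart d (wordMon ℂ n u' * x)) = 0
    rw [Submodule.mkQ_apply, Submodule.Quotient.mk_eq_zero]
    exact kfb_homog I d _ _ (hI _) (degSpan_mul _ _ _ _ (wordMon_deg u') he)) u
  have h2 : I.mkQ (degPart d (u * x)) = 0 := this
  rwa [Submodule.mkQ_apply, Submodule.Quotient.mk_eq_zero] at h2

theorem kfb_right (I : Submodule ℂ (FA n)) (d e : Fin n → ℕ) (x : FA n) (he : x ∈ degSpan e)
    (hI : ∀ v, x * v ∈ I) (v : FA n) : degPart d (x * v) ∈ I := by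
  have := fk_right (I.mkQ ∘ₗ degPart d) x (fun v' => by
    show I.mkQ (degPart d (x * wordMon ℂ n v')) = 0
    rw [Submodule.mkQ_apply, Submodule.Quotient.mk_eq_zero]
    exact kfb_homog I d _ _ (hI _) (degSpan_mul _ _ _ _ he (wordMon_deg v'))) v
  have h2 : I.mkQ (degPart d (x * v)) = 0 := this
  rwa [Submodule.mkQ_apply, Submodule.Quotient.mk_eq_zero] at h2

theorem kfb_leftI (I : Submodule ℂ (FA n)) (b : Fin n → ℕ) (hI : leftI b ≤ I) (d : Fin n → ℕ)
    (a : FA n) (ha : a ∈ leftI b) : degPart d a ∈ I := by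
  refine kfb_span I d _ ?_ a ha
  rintro x ⟨u, i, rfl⟩
  exact kfb_left I d _ _ (kfa_fgen_pow_deg i (b i + 1))
    (fun u => hI (Submodule.subset_span ⟨u, i, rfl⟩)) u

theorem degPart_presI (b d : Fin n → ℕ) (a : FA n) (ha : a ∈ presI b) : degPart d a ∈ presI b := by
  obtain ⟨s, hs, l, hl, rfl⟩ := Submodule.mem_sup.1 ha
  rw [map_add]
  exact Submodule.add_mem _ (kfb_serre _ (kfa_serre_le b) d s hs) (kfb_leftI _ b (kfa_leftI_le b) d l hl)

theorem degPart_dqIdeal (a b d : Fin n → ℕ) (x : FA n) (hx : x ∈ dqIdeal ℂ n a b) :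
    degPart d x ∈ dqIdeal ℂ n a b := by
  have h1 : serreSpan ℂ n ≤ dqIdeal ℂ n a b := le_sup_of_le_left le_sup_left
  have h2 : Submodule.span ℂ {x | ∃ u i, x = fgen ℂ n i ^ (a i + 1) * u} ≤ dqIdeal ℂ n a b :=
    le_sup_of_le_left le_sup_right
  have h3 : leftI b ≤ dqIdeal ℂ n a b := le_sup_right
  obtain ⟨y, hy, l, hl, rfl⟩ := Submodule.mem_sup.1 hx
  obtain ⟨s, hs, r, hr, rfl⟩ := Submodule.mem_sup.1 hy
  rw [map_add, map_add]
  refine Submodule.add_mem _ (Submodule.add_mem _ (kfb_serre _ h1 d s hs) ?_)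
    (kfb_leftI _ b h3 d l hl)
  refine kfb_span _ d _ ?_ r hr
  rintro z ⟨u, i, rfl⟩
  exact kfb_right _ d _ _ (kfa_fgen_pow_deg i (a i + 1))
    (fun u => h2 (Submodule.subset_span ⟨u, i, rfl⟩)) u

end Claimed.Agent.R282
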