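import Claimed.Agent.R282.Rep.K.Free2

/-!
# Row 282, Rep/K, LEAF L-K-INTER : the free algebra acting on a highest weight vector (statements by helper103), ~800 lines

Notation: `α_k = simpleRD hn k`, `e_k = R.op (rootVec α_k)`, `f_k = R.op (rootVec α_k.neg) = R.toLin.free hn (fgen ℂ n k)` (`free_fgen`), `[e_k, f_j] = - δ_kj H_(α_k)` (`simple_bracket`, `simple_bracket_self`, `op_bracket`).
* `cwt_spec`: `cwt M k = ((∑ M_l α_k,l) / 2).toNat`; for a dominant weight the sum is even and `≥ 0` (`M_i - M_(i+1)`, resp. `M_(n-2) + M_(n-1)`); `simpleRD_vec`.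
* `dot_simple`: `dot α_i α_k = cartD n i k` (`simpleRD_vec`).
* `free_prE`: linear in `a`; on words by induction (`prE_fgen_mul`): `-e_k f_j x = f_j (-e_k x) + δ_kj H_(α_k) x`, and `x = free w v` has weight `lam - ∑ count α` (`word_wt`), so `H_(α_k) x = (c_k - wsh w k) x` (`mem_wt`).  Start: `e_k v = 0` (`IsHW.top`, `isRootVec_rootVec`, `simpleRD_pos`).
* `free_prEAct`: `FreeAlgebra.induction` on `P` from `free_prE`.
* `free_serre`: in `so(2n)`: `[f_i, f_j] = 0` (not adjacent, `i ≠ j`), `[f_i, [f_i, f_j]] = 0` (adjacent): the bracket is a root vector for `-(α_i + α_j)`, resp. `-(2 α_i + α_j)`, which is not a root and not `0`: either by the explicit formula for brackets of `u ∧ u'` (header of `R/Words.lean`), or: an `InG` matrix `E` with `[Hc x, E] = (γ·x) E` for all `x` and `γ ≠ 0` not a root vanishes (expand `E` by `inG_span`..).  Then apply `R.bracket`.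
* `free_pow_top`: `sl₂`: `e = -e_i`, `f = f_i`, `h = H_(α_i)`, `e v = 0`, `h v = m v`, `m = cwt M i` (`rep_hw_dominant`, `halfV_injective`, `cwt_spec`).  `e f^(k+1) v = (k+1)(m-k) f^k v`.  With `f = e^*` (`rootVec_conjTranspose`, `op_adjoint`): `‖f^(m+1) v‖² = ⟨f^m v, e f^(m+1) v⟩ = 0`.
* `free_deg_wt`: from `word_wt`.   `degVecR_injective`: the simple roots are linearly independent (triangular: solve from the first coordinate; the last two: `d_(n-2) + d_(n-1)` and `- d_(n-2) + d_(n-1)`).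
* `free_degPart_zero`: `0 = free a x = ∑_d free (degPart d a) x` (`sum_degPart`), the summands have pairwise different weights (`degVecR_injective`), `wt_indep`.
* `wt_words`: `cyc_words` gives `a`; replace `a` by `degPart d a`: the other components vanish by the same independence argument.
-/

set_option autoImplicit false

namespace Claimed.Agent.R282

open Claims.C0456 Matrix

variable {n : ℕ}
variable {ι : Type} [Fintype ι] [DecidableEq ι]

/-! ## arithmetic of the simple roots -/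

theorem kin_dot_sum_left {κ : Type*} (s : Finset κ) (f : κ → Vec n) (y : Vec n) :
    dot (∑ i ∈ s, f i) y = ∑ i ∈ s, dot (f i) y := by
  classical
  induction s using Finset.induction_on with
  | empty => simp [dot]
  | insert a s ha ih => rw [Finset.sum_insert ha, Finset.sum_insert ha, sc_dot_add_left, ih]

theorem kin_sum_eq (hn : 2 ≤ n) (M : Fin n → ℤ) (k : Fin n) :
    ((∑ l, M l * simpleRootD n k l : ℤ) : ℝ) = 2 * dot (halfV M) (simpleRD hn k).vec := by
  rw [simpleRD_vec]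
  unfold dot halfV
  push_cast
  rw [Finset.mul_sum]
  exact Finset.sum_congr rfl fun l _ => by ring

theorem kin_pair_even (hn : 2 ≤ n) (M : Fin n → ℤ) (hM : IsDominantWeight2 M) (k : Fin n) :
    ∃ z : ℤ, 0 ≤ z ∧ ∑ l, M l * simpleRootD n k l = 2 * z := by
  have h1 := kin_sum_eq hn M k
  rw [sc_dot_comm, rwd_dot_vec] at h1
  by_cases h : (k : ℕ) + 1 < n
  · rw [rwd_simpleRD_lt hn k h] at h1
    simp only [sgnB, halfV] at h1
    have hlt : k < (⟨k + 1, h⟩ : Fin n) := by
      show (k : ℕ) < k + 1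
      omega
    have e : ∑ l, M l * simpleRootD n k l = M k - M ⟨k + 1, h⟩ := by
      have : ((∑ l, M l * simpleRootD n k l : ℤ) : ℝ) = ((M k - M ⟨k + 1, h⟩ : ℤ) : ℝ) := by
        rw [h1]
        push_cast
        simp
        ring
      exact_mod_cast this
    obtain ⟨z, hz⟩ := hM.1 k ⟨k + 1, h⟩
    have h2 := (le_abs_self _).trans (hM.2 k ⟨k + 1, h⟩ hlt)
    exact ⟨z, by omega, by rw [e, hz]; ring⟩
  · rw [rwd_simpleRD_last hn k h] at h1
    simp only [sgnB, halfV] at h1
    have hlt : (⟨n - 2, by omega⟩ : Fin n) < (⟨n - 1, by omega⟩ : Fin n) := by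
      show n - 2 < n - 1
      omega
    have e : ∑ l, M l * simpleRootD n k l = M ⟨n - 2, by omega⟩ + M ⟨n - 1, by omega⟩ := by
      have : ((∑ l, M l * simpleRootD n k l : ℤ) : ℝ)
          = ((M ⟨n - 2, by omega⟩ + M ⟨n - 1, by omega⟩ : ℤ) : ℝ) := by
        rw [h1]
        push_cast
        simp
        ring
      exact_mod_cast this
    obtain ⟨z, hz⟩ := hM.1 ⟨n - 2, by omega⟩ ⟨n - 1, by omega⟩
    have h2 := hM.2 _ _ hlt
    have h3 := neg_abs_le (M ⟨n - 1, by omega⟩)
    exact ⟨z + M ⟨n - 1, by omega⟩, by omega, by rw [e]; omega⟩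

theorem cwt_spec (hn : 2 ≤ n) (M : Fin n → ℤ) (hM : IsDominantWeight2 M) (k : Fin n) :
    dot (halfV M) (simpleRD hn k).vec = (cwt M k : ℝ) := by
  obtain ⟨z, hz0, hz⟩ := kin_pair_even hn M hM k
  have h1 := kin_sum_eq hn M k
  rw [hz] at h1
  push_cast at h1
  have h2 : cwt M k = z.toNat := by
    unfold cwt
    rw [hz, Int.mul_ediv_cancel_left _ (by norm_num)]
  have h3 : ((z.toNat : ℕ) : ℝ) = (z : ℝ) := by
    have : ((z.toNat : ℕ) : ℤ) = z := Int.toNat_of_nonneg hz0
    exact_mod_cast this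
  rw [h2, h3]
  linarith

theorem dot_simple (hn : 2 ≤ n) (i k : Fin n) :
    dot (simpleRD hn i).vec (simpleRD hn k).vec = (cartD n i k : ℝ) := by
  rw [simpleRD_vec, simpleRD_vec]
  unfold dot cartD
  push_cast
  rfl

theorem kin_halfV_nsmul (t : ℕ) (L : Fin n → ℤ) : halfV (t • L) = (t : ℝ) • halfV L := by
  funext i
  simp only [halfV, Pi.smul_apply, nsmul_eq_mul, smul_eq_mul]
  push_cast
  ring

/-- `cwt (M + t ρ) = cwt M + t` -/
theorem cwt_add_rho (hn : 2 ≤ n) (M : Fin n → ℤ) (hM : IsDominantWeight2 M) (t : ℕ) (k : Fin n) :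
    IsDominantWeight2 (M + t • rho2 n) ∧ cwt (M + t • rho2 n) k = cwt M k + t := by
  have hap : ∀ i, (M + t • rho2 n) i = M i + (t : ℤ) * (2 * ((n : ℤ) - 1 - ((i : ℕ) : ℤ))) := by
    intro i
    rw [Pi.add_apply, Pi.smul_apply, nsmul_eq_mul]
    rfl
  have hdom : IsDominantWeight2 (M + t • rho2 n) := by
    refine ⟨fun i j => ?_, fun i j hij => ?_⟩
    · have e : (M + t • rho2 n) i - (M + t • rho2 n) j
          = (M i - M j) + 2 * ((t : ℤ) * (((j : ℕ) : ℤ) - ((i : ℕ) : ℤ))) := by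
        rw [hap, hap]
        ring
      rw [e]
      exact (hM.1 i j).add (even_two_mul _)
    · rw [hap, hap]
      have h1 := hM.2 i j hij
      have hij' : ((i : ℕ) : ℤ) < ((j : ℕ) : ℤ) := by exact_mod_cast hij
      have hj : ((j : ℕ) : ℤ) + 1 ≤ (n : ℤ) := by exact_mod_cast j.2
      have ht : (0 : ℤ) ≤ t := Int.natCast_nonneg t
      have h2 : (0 : ℤ) ≤ (t : ℤ) * (2 * ((n : ℤ) - 1 - ((j : ℕ) : ℤ))) :=
        mul_nonneg ht (by linarith)
      have h3 : (t : ℤ) * (2 * ((n : ℤ) - 1 - ((j : ℕ) : ℤ)))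
          ≤ (t : ℤ) * (2 * ((n : ℤ) - 1 - ((i : ℕ) : ℤ))) :=
        mul_le_mul_of_nonneg_left (by linarith) ht
      calc |M j + (t : ℤ) * (2 * ((n : ℤ) - 1 - ((j : ℕ) : ℤ)))|
          ≤ |M j| + |(t : ℤ) * (2 * ((n : ℤ) - 1 - ((j : ℕ) : ℤ)))| := abs_add_le _ _
        _ = |M j| + (t : ℤ) * (2 * ((n : ℤ) - 1 - ((j : ℕ) : ℤ))) := by rw [abs_of_nonneg h2]
        _ ≤ _ := by linarith
  refine ⟨hdom, ?_⟩
  have h1 := cwt_spec hn _ hdom k
  rw [halfV_add, kin_halfV_nsmul, halfV_rho2, sc_dot_add_left, sc_dot_smul_left, cwt_spec hn M hM k,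
    sc_dot_comm, simpleRD_rho] at h1
  have h2 : ((cwt (M + t • rho2 n) k : ℕ) : ℝ) = ((cwt M k + t : ℕ) : ℝ) := by
    rw [← h1]
    push_cast
    ring
  exact_mod_cast h2

theorem halfV_degVec (hn : 2 ≤ n) (d : Fin n → ℕ) :
    halfV (2 • degVec d) = ∑ i, (d i : ℝ) • (simpleRD hn i).vec := by
  funext k
  have e1 : (2 • degVec d) k = 2 * ∑ i, (d i : ℤ) * simpleRootD n i k := by
    rw [Pi.smul_apply, degVec, Finset.sum_apply, nsmul_eq_mul]
    congr 1
  unfold halfV
  rw [e1, Finset.sum_apply]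
  push_cast
  rw [mul_div_cancel_left₀ _ (two_ne_zero)]
  exact Finset.sum_congr rfl fun i _ => by rw [Pi.smul_apply, simpleRD_vec, smul_eq_mul]

/-- fundamental coweights -/
noncomputable def kinFund (n : ℕ) (k : Fin n) : Vec n := fun i =>
  if (k : ℕ) + 2 < n then (if (i : ℕ) ≤ k then 1 else 0)
  else if (k : ℕ) + 2 = n then (if (i : ℕ) + 1 = n then -1 / 2 else 1 / 2)
  else 1 / 2

theorem kin_dot_fund (hn : 2 ≤ n) (i k : Fin n) :
    dot (simpleRD hn i).vec (kinFund n k) = if i = k then 1 else 0 := by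
  have hi := i.2
  have hk := k.2
  rw [rwd_dot_vec]
  by_cases h : (i : ℕ) + 1 < n
  · rw [rwd_simpleRD_lt hn i h]
    simp only [sgnB, kinFund, Fin.ext_iff]
    by_cases h1 : (k : ℕ) + 2 < n
    · simp only [if_pos h1]
      by_cases h2 : (i : ℕ) = k
      · rw [if_pos h2.le, if_neg (show ¬ (i : ℕ) + 1 ≤ k by omega), if_pos h2]
        simp
      · rw [if_neg h2]
        by_cases h3 : (i : ℕ) ≤ k
        · rw [if_pos h3, if_pos (show (i : ℕ) + 1 ≤ k by omega)]
          simp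
        · rw [if_neg h3, if_neg (show ¬ (i : ℕ) + 1 ≤ k by omega)]
          simp
    · simp only [if_neg h1]
      by_cases h2 : (k : ℕ) + 2 = n
      · simp only [if_pos h2]
        rw [if_neg (show ¬ (i : ℕ) + 1 = n by omega)]
        by_cases h3 : (i : ℕ) = k
        · rw [if_pos (show (i : ℕ) + 1 + 1 = n by omega), if_pos h3]
          norm_num
        · rw [if_neg (show ¬ (i : ℕ) + 1 + 1 = n by omega), if_neg h3]
          norm_num
      · simp only [if_neg h2]
        rw [if_neg (show ¬ (i : ℕ) = k by omega)]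
        norm_num
  · rw [rwd_simpleRD_last hn i h]
    simp only [sgnB, kinFund, Fin.ext_iff]
    by_cases h1 : (k : ℕ) + 2 < n
    · simp only [if_pos h1]
      rw [if_neg (show ¬ n - 2 ≤ (k : ℕ) by omega), if_neg (show ¬ n - 1 ≤ (k : ℕ) by omega),
        if_neg (show ¬ (i : ℕ) = k by omega)]
      simp
    · simp only [if_neg h1]
      by_cases h2 : (k : ℕ) + 2 = n
      · simp only [if_pos h2]
        rw [if_neg (show ¬ n - 2 + 1 = n by omega), if_pos (show n - 1 + 1 = n by omega),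
          if_neg (show ¬ (i : ℕ) = k by omega)]
        norm_num
      · simp only [if_neg h2]
        rw [if_pos (show (i : ℕ) = k by omega)]
        norm_num

theorem degVecR_injective (hn : 2 ≤ n) (d d' : Fin n → ℕ)
    (h : ∑ i, (d i : ℝ) • (simpleRD hn i).vec = ∑ i, (d' i : ℝ) • (simpleRD hn i).vec) : d = d' := by
  have key : ∀ (e : Fin n → ℕ) (k : Fin n),
      dot (∑ i, (e i : ℝ) • (simpleRD hn i).vec) (kinFund n k) = (e k : ℝ) := by
    intro e k
    rw [kin_dot_sum_left]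
    simp only [sc_dot_smul_left, kin_dot_fund, mul_ite, mul_one, mul_zero]
    rw [Finset.sum_ite_eq' Finset.univ k, if_pos (Finset.mem_univ k)]
  funext k
  have h1 := key d k
  rw [h, key d' k] at h1
  exact_mod_cast h1.symm

/-! ## the intertwining property -/

/-- the action of the free algebra through `- e_k` -/
noncomputable def StarRep.freeE (R : StarRep Ty.D n ι) (hn : 2 ≤ n) :
    FA n →ₐ[ℂ] Module.End ℂ (ι → ℂ) :=
  FreeAlgebra.lift ℂ fun k => - R.op (rootVec (simpleRD hn k))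

theorem kin_free_fgen_mul (hn : 2 ≤ n) (R : StarRep Ty.D n ι) (j : Fin n) (a : FA n) (v : ι → ℂ) :
    R.toLin.free hn (fgen ℂ n j * a) v
      = R.op (rootVec (simpleRD hn j).neg) (R.toLin.free hn a v) := by
  rw [map_mul, Module.End.mul_apply, free_fgen]

theorem kin_dot_wt (hn : 2 ≤ n) (lam : Vec n) (d : Fin n → ℕ) (k : Fin n) :
    dot (lam - ∑ i, (d i : ℝ) • (simpleRD hn i).vec) (simpleRD hn k).vec
      = dot lam (simpleRD hn k).vec - (dsh d k : ℝ) := by
  rw [sc_dot_sub_left, kin_dot_sum_left]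
  simp only [sc_dot_smul_left, dot_simple]
  unfold dsh
  push_cast
  rfl

/-- the intertwining property of `prE` -/
theorem free_prE (hn : 2 ≤ n) (R : StarRep Ty.D n ι) (v : ι → ℂ) (lam : Vec n) (h : IsHW R v lam)
    (c : Fin n → ℂ) (hc : ∀ k, c k = ((dot lam (simpleRD hn k).vec : ℝ) : ℂ)) (k : Fin n) (a : FA n) :
    R.toLin.free hn (prE c k a) v = - R.op (rootVec (simpleRD hn k)) (R.toLin.free hn a v) := by
  obtain ⟨-, hvwt, hvprim⟩ := (isHW_iff R v lam).1 h
  refine fk_induction (R := ℂ) (n := n) (P := fun a => R.toLin.free hn (prE c k a) v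
    = - R.op (rootVec (simpleRD hn k)) (R.toLin.free hn a v)) a ?_ ?_ ?_ ?_
  · intro w
    induction w with
    | nil =>
      rw [wordMon_nil, prE_one, map_zero, map_one, LinearMap.zero_apply, Module.End.one_apply,
        (mem_prim R v).1 hvprim _ (simpleRD_pos hn k), neg_zero]
    | cons j w ih =>
      rw [wordMon_cons, prE_fgen_mul, map_add, LinearMap.add_apply, kin_free_fgen_mul, ih,
        kin_free_fgen_mul]
      have hb := op_bracket R (rootVec (simpleRD hn k)) (rootVec (simpleRD hn j).neg)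
        (isRootVec_rootVec _).1 (isRootVec_rootVec _).1 (R.toLin.free hn (wordMon ℂ n w) v)
      by_cases hjk : j = k
      · subst hjk
        rw [simple_bracket_self, rwd_op_neg] at hb
        have hx := word_wt hn R v lam hvwt w
        have hH := (mem_wt R _ _).1 hx (simpleRD hn j).vec
        rw [kin_dot_wt hn lam (fun i => w.count i) j,
          ← wsh_eq_dsh w (fun i => w.count i) (fun _ => rfl) j] at hH
        rw [hH] at hb
        rw [if_pos rfl, map_smul, LinearMap.smul_apply, hc j, map_neg]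
        have e : (((dot lam (simpleRD hn j).vec - (wsh w j : ℝ) : ℝ)) : ℂ)
            = ((dot lam (simpleRD hn j).vec : ℝ) : ℂ) - (wsh w j : ℂ) := by
          push_cast
          rfl
        rw [e] at hb
        have hb' := eq_add_of_sub_eq hb.symm
        rw [hb']
        abel
      · rw [simple_bracket hn k j (Ne.symm hjk), rwd_op_zero] at hb
        rw [if_neg hjk, map_zero, LinearMap.zero_apply, add_zero, map_neg,
          ← sub_eq_zero.1 hb.symm]
  · rw [map_zero, map_zero, LinearMap.zero_apply, map_zero, neg_zero]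
  · intro x y hx hy
    rw [map_add, map_add, map_add, LinearMap.add_apply, LinearMap.add_apply, hx, hy, map_add,
      neg_add]
  · intro r x hx
    rw [map_smul, map_smul, map_smul, LinearMap.smul_apply, LinearMap.smul_apply, hx, map_smul,
      smul_neg]

theorem free_prEAct (hn : 2 ≤ n) (R : StarRep Ty.D n ι) (v : ι → ℂ) (lam : Vec n) (h : IsHW R v lam)
    (c : Fin n → ℂ) (hc : ∀ k, c k = ((dot lam (simpleRD hn k).vec : ℝ) : ℂ)) (P a : FA n) :
    R.toLin.free hn (prEAct c P a) v = R.freeE hn P (R.toLin.free hn a v) := by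
  induction P using FreeAlgebra.induction generalizing a with
  | grade0 r =>
    rw [AlgHom.commutes, AlgHom.commutes, Module.algebraMap_end_apply, Module.algebraMap_end_apply,
      map_smul, LinearMap.smul_apply]
  | grade1 k =>
    simp only [prEAct, StarRep.freeE, FreeAlgebra.lift_ι_apply]
    rw [free_prE hn R v lam h c hc k a]
    rfl
  | mul P Q hP hQ =>
    rw [map_mul, map_mul, Module.End.mul_apply, Module.End.mul_apply, hP, hQ]
  | add P Q hP hQ =>
    rw [map_add, map_add, LinearMap.add_apply, LinearMap.add_apply, map_add, LinearMap.add_apply,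
      hP, hQ]

/-! ## the Serre relations in `so(2n)` -/

theorem kin_neg_si (hn : 2 ≤ n) (i : Fin n) : (simpleRD hn i).neg.si = true := by
  by_cases h : (i : ℕ) + 1 < n
  · rw [rwd_simpleRD_lt hn i h]; rfl
  · rw [rwd_simpleRD_last hn i h]; rfl

theorem kin_neg_lt (hn : 2 ≤ n) (i : Fin n) : (simpleRD hn i).neg.i < (simpleRD hn i).neg.j := by
  by_cases h : (i : ℕ) + 1 < n
  · rw [rwd_simpleRD_lt hn i h]
    show (i : ℕ) < i + 1
    omega
  · rw [rwd_simpleRD_last hn i h]
    show n - 2 < n - 1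
    omega

theorem kin_W_double (a b z w : Ix n → ℂ) (haa : a ⬝ᵥ a = 0) (hbb : b ⬝ᵥ b = 0)
    (hab : a ⬝ᵥ b = 0) :
    rwdW a b * (rwdW a b * rwdW z w - rwdW z w * rwdW a b)
        - (rwdW a b * rwdW z w - rwdW z w * rwdW a b) * rwdW a b
      = (2 * ((b ⬝ᵥ w) * (a ⬝ᵥ z) - (b ⬝ᵥ z) * (a ⬝ᵥ w))) • rwdW a b := by
  have hba : b ⬝ᵥ a = 0 := by rw [dotProduct_comm]; exact hab
  have h1 : ∀ w, rwdW a b * rwdW a w - rwdW a w * rwdW a b = (-(a ⬝ᵥ w)) • rwdW a b := by
    intro w
    rw [rwd_W_bracket, hba, haa, rwd_W_self, rwd_W_swap a b]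
    simp
  have h2 : ∀ w, rwdW a b * rwdW b w - rwdW b w * rwdW a b = (-(b ⬝ᵥ w)) • rwdW a b := by
    intro w
    rw [rwd_W_bracket, hbb, hab, rwd_W_self]
    simp
  rw [rwd_W_bracket a b z w]
  have e : rwdW a b * ((b ⬝ᵥ z) • rwdW a w - (b ⬝ᵥ w) • rwdW a z - (a ⬝ᵥ z) • rwdW b w
        + (a ⬝ᵥ w) • rwdW b z)
      - ((b ⬝ᵥ z) • rwdW a w - (b ⬝ᵥ w) • rwdW a z - (a ⬝ᵥ z) • rwdW b w
        + (a ⬝ᵥ w) • rwdW b z) * rwdW a b
      = (b ⬝ᵥ z) • (rwdW a b * rwdW a w - rwdW a w * rwdW a b)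
        - (b ⬝ᵥ w) • (rwdW a b * rwdW a z - rwdW a z * rwdW a b)
        - (a ⬝ᵥ z) • (rwdW a b * rwdW b w - rwdW b w * rwdW a b)
        + (a ⬝ᵥ w) • (rwdW a b * rwdW b z - rwdW b z * rwdW a b) := by
    simp only [mul_add, mul_sub, add_mul, sub_mul, Matrix.mul_smul, Matrix.smul_mul, smul_sub]
    abel
  rw [e, h1, h1, h2, h2]
  module

theorem kin_double_bracket (β γ : RootD n) (h1 : ¬ (β.j = γ.i ∧ β.i = γ.j)) (h2 : β.si = γ.si) :
    rootVec β * (rootVec β * rootVec γ - rootVec γ * rootVec β)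
      - (rootVec β * rootVec γ - rootVec γ * rootVec β) * rootVec β = 0 := by
  have hW := kin_W_double (uvec β.i β.si) (uvec β.j β.sj) (uvec γ.i γ.si) (uvec γ.j γ.sj)
    (by rw [rwd_uvec_dot]; simp) (by rw [rwd_uvec_dot]; simp)
    (by rw [rwd_uvec_dot, if_neg (fun h => β.ne h.1)])
  have z1 : uvec β.i β.si ⬝ᵥ uvec γ.i γ.si = 0 := by
    rw [rwd_uvec_dot, if_neg (fun h => h.2 h2)]
  have z2 : (uvec β.j β.sj ⬝ᵥ uvec γ.i γ.si) * (uvec β.i β.si ⬝ᵥ uvec γ.j γ.sj) = 0 := by
    rw [rwd_uvec_dot, rwd_uvec_dot]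
    by_cases ha : β.j = γ.i ∧ β.sj ≠ γ.si
    · have hb : ¬ (β.i = γ.j ∧ β.si ≠ γ.sj) := fun h => h1 ⟨ha.1, h.1⟩
      rw [if_neg hb, mul_zero]
    · rw [if_neg ha, zero_mul]
  rw [z1, z2, mul_zero, sub_zero, mul_zero, zero_smul] at hW
  rw [rwd_rootVec β, rwd_rootVec γ]
  simp only [← smul_sub, mul_smul_comm, smul_mul_assoc]
  rw [hW]
  simp

theorem kin_neg_bracket (hn : 2 ≤ n) (i j : Fin n) (hij : i ≠ j) (h : ¬ adjD n i j) :
    rootVec (simpleRD hn i).neg * rootVec (simpleRD hn j).neg -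
      rootVec (simpleRD hn j).neg * rootVec (simpleRD hn i).neg = 0 := by
  have hij' : (i : ℕ) ≠ j := fun h => hij (Fin.ext h)
  unfold adjD at h
  rw [rwd_rootVec_bracket]
  by_cases hi : (i : ℕ) + 1 < n <;> by_cases hj : (j : ℕ) + 1 < n
  · rw [rwd_simpleRD_lt hn i hi, rwd_simpleRD_lt hn j hj]
    have h1 : ¬ (i : ℕ) + 1 = j := by omega
    have h2 : ¬ (i : ℕ) = j + 1 := by omega
    simp [RootD.neg, Fin.ext_iff, h1, h2]
  · rw [rwd_simpleRD_lt hn i hi, rwd_simpleRD_last hn j hj]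
    simp only [RootD.neg, Fin.ext_iff]
    have h1 : ¬ (i : ℕ) + 1 = n - 2 := by omega
    by_cases h2 : (i : ℕ) = n - 2
    · have : (⟨n - 2, by omega⟩ : Fin n) = i := Fin.ext h2.symm
      rw [this]
      simp [rwd_W_self, h1]
    · have h3 : ¬ (i : ℕ) + 1 = n - 1 := by omega
      simp [h1, h3]
  · rw [rwd_simpleRD_last hn i hi, rwd_simpleRD_lt hn j hj]
    simp only [RootD.neg, Fin.ext_iff]
    have h1 : ¬ n - 2 = (j : ℕ) + 1 := by omega
    by_cases h2 : (j : ℕ) = n - 2
    · have : (⟨n - 2, by omega⟩ : Fin n) = j := Fin.ext h2.symm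
      rw [this]
      simp [rwd_W_self, h1]
    · have h3 : ¬ n - 1 = (j : ℕ) + 1 := by omega
      simp [h1, h3]
  · exfalso
    have := i.2
    have := j.2
    omega

theorem kin_ring_id {A : Type*} [Ring A] (a b : A) :
    a * a * b - 2 * (a * b * a) + b * a * a = a * (a * b - b * a) - (a * b - b * a) * a := by
  noncomm_ring

theorem kin_free_fgen (hn : 2 ≤ n) (R : StarRep Ty.D n ι) (i : Fin n) :
    R.toLin.free hn (fgen ℂ n i) = R.toLin.ρ (rootVec (simpleRD hn i).neg) := by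
  simp only [LinRep.free, fgen, FreeAlgebra.lift_ι_apply]

/-- the Serre relations hold in `so(2n)` -/
theorem free_serre (hn : 2 ≤ n) (R : StarRep Ty.D n ι) (i j : Fin n) :
    R.toLin.free hn (serreElt ℂ n i j) = 0 := by
  have gi : Ty.D.InG (rootVec (simpleRD hn i).neg) := (isRootVec_rootVec _).1
  have gj : Ty.D.InG (rootVec (simpleRD hn j).neg) := (isRootVec_rootVec _).1
  have hb := R.toLin.bracket _ _ gi gj
  unfold serreElt
  split_ifs with hadj
  · have key := R.toLin.bracket _ _ gi (inG_bracket _ _ gi gj)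
    rw [kin_double_bracket _ _ (fun h => by
        have h1 := kin_neg_lt hn i
        have h2 := kin_neg_lt hn j
        rw [h.1, h.2] at h1
        exact lt_asymm h1 h2) (by rw [kin_neg_si, kin_neg_si]), map_zero, hb] at key
    rw [map_add, map_sub, map_mul, map_mul, map_mul, map_mul, map_mul, map_mul, map_mul,
      map_ofNat, kin_free_fgen, kin_free_fgen]
    rw [kin_ring_id, ← key]
  · rw [map_sub, map_mul, map_mul, kin_free_fgen, kin_free_fgen, ← hb]
    by_cases hij : i = j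
    · subst hij
      rw [sub_self, map_zero]
    · rw [kin_neg_bracket hn i j hij hadj, map_zero]

theorem free_serreSpan (hn : 2 ≤ n) (R : StarRep Ty.D n ι) (a : FA n) (ha : a ∈ serreSpan ℂ n) :
    R.toLin.free hn a = 0 := by
  unfold serreSpan at ha
  induction ha using Submodule.span_induction with
  | mem x hx =>
    obtain ⟨u, v, i, j, rfl⟩ := hx
    rw [map_mul, map_mul, free_serre, mul_zero, zero_mul]
  | zero => exact map_zero _
  | add x y _ _ hx hy => rw [map_add, hx, hy, add_zero]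
  | smul r x _ hx => rw [map_smul, hx, smul_zero]

/-! ## the relations `f_i^(m_i+1) v = 0` -/

/-- `f_i^(m_i+1) v = 0` -/
theorem free_pow_top (hn : 2 ≤ n) (R : StarRep Ty.D n ι) (v : ι → ℂ) (M : Fin n → ℤ)
    (h : IsHW R v (halfV M)) (i : Fin n) :
    R.toLin.free hn (fgen ℂ n i ^ (cwt M i + 1)) v = 0 := by
  obtain ⟨L, hL, hML⟩ := rep_hw_dominant hn R v _ h
  have hM : IsDominantWeight2 M := by rw [halfV_injective hML]; exact hL
  have h1 := free_prE hn R v _ h (fun k => ((dot (halfV M) (simpleRD hn k).vec : ℝ) : ℂ))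
    (fun _ => rfl) i (fgen ℂ n i ^ (cwt M i + 1))
  rw [prE_pow hn, if_pos rfl] at h1
  have hz : (((cwt M i + 1 : ℕ) : ℂ) * (((dot (halfV M) (simpleRD hn i).vec : ℝ) : ℂ)
      - (((cwt M i + 1 : ℕ) : ℂ) - 1))) = 0 := by
    rw [cwt_spec hn M hM i]
    push_cast
    ring
  rw [hz, zero_smul, map_zero, LinearMap.zero_apply] at h1
  have hEy : R.op (rootVec (simpleRD hn i)) (R.toLin.free hn (fgen ℂ n i ^ (cwt M i + 1)) v) = 0 :=
    neg_eq_zero.1 h1.symm
  have hy : R.toLin.free hn (fgen ℂ n i ^ (cwt M i + 1)) v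
      = R.op (rootVec (simpleRD hn i).neg) (R.toLin.free hn (fgen ℂ n i ^ cwt M i) v) := by
    rw [← kin_free_fgen_mul, ← pow_succ']
  rw [← star_dot_self_eq_zero]
  calc star (R.toLin.free hn (fgen ℂ n i ^ (cwt M i + 1)) v)
        ⬝ᵥ R.toLin.free hn (fgen ℂ n i ^ (cwt M i + 1)) v
      = star (R.op (rootVec (simpleRD hn i).neg) (R.toLin.free hn (fgen ℂ n i ^ cwt M i) v))
        ⬝ᵥ R.toLin.free hn (fgen ℂ n i ^ (cwt M i + 1)) v := by rw [← hy]
    _ = star (R.toLin.free hn (fgen ℂ n i ^ cwt M i) v)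
        ⬝ᵥ R.op (rootVec (simpleRD hn i).neg)ᴴ (R.toLin.free hn (fgen ℂ n i ^ (cwt M i + 1)) v) :=
        op_adjoint R _ (isRootVec_rootVec _).1 _ _
    _ = 0 := by
        rw [rootVec_conjTranspose, rwd_neg_neg, rwd_op_neg, hEy, neg_zero, dotProduct_zero]

/-- the easy direction of the presentation -/
theorem free_presI (hn : 2 ≤ n) (R : StarRep Ty.D n ι) (v : ι → ℂ) (M : Fin n → ℤ)
    (h : IsHW R v (halfV M)) (a : FA n) (ha : a ∈ presI (cwt M)) : R.toLin.free hn a v = 0 := by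
  unfold presI at ha
  obtain ⟨s, hs, l, hl, rfl⟩ := Submodule.mem_sup.1 ha
  clear ha
  rw [map_add, LinearMap.add_apply, free_serreSpan hn R s hs, LinearMap.zero_apply, zero_add]
  unfold leftI at hl
  induction hl using Submodule.span_induction with
  | mem x hx =>
    obtain ⟨u, i, rfl⟩ := hx
    rw [map_mul, Module.End.mul_apply, free_pow_top hn R v M h i, map_zero]
  | zero => rw [map_zero, LinearMap.zero_apply]
  | add x y _ _ hx hy => rw [map_add, LinearMap.add_apply, hx, hy, add_zero]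
  | smul r x _ hx => rw [map_smul, LinearMap.smul_apply, hx, smul_zero]

/-! ## weights of homogeneous elements -/

theorem free_deg_wt (hn : 2 ≤ n) (R : StarRep Ty.D n ι) (x : ι → ℂ) (χ : Vec n) (hx : x ∈ R.wt χ)
    (d : Fin n → ℕ) (a : FA n) (ha : a ∈ degSpan d) :
    R.toLin.free hn a x ∈ R.wt (χ - ∑ i, (d i : ℝ) • (simpleRD hn i).vec) := by
  unfold degSpan at ha
  induction ha using Submodule.span_induction with
  | mem y hy =>
    obtain ⟨w, hw, rfl⟩ := hy
    have := word_wt hn R x χ hx w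
    simp only [hw] at this
    exact this
  | zero =>
    rw [map_zero, LinearMap.zero_apply]
    exact Submodule.zero_mem _
  | add y z _ _ hy hz =>
    rw [map_add, LinearMap.add_apply]
    exact Submodule.add_mem _ hy hz
  | smul r y _ hy =>
    rw [map_smul, LinearMap.smul_apply]
    exact Submodule.smul_mem _ r hy

theorem kin_orth_sum (hn : 2 ≤ n) (R : StarRep Ty.D n ι) (x : ι → ℂ) (χ : Vec n) (hx : x ∈ R.wt χ)
    (a : FA n) (F : Finset (Fin n → ℕ)) (y : ι → ℂ) (ψ : Vec n) (hy : y ∈ R.wt ψ)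
    (hψ : ∀ d ∈ F, ψ ≠ χ - ∑ i, (d i : ℝ) • (simpleRD hn i).vec) :
    star y ⬝ᵥ ∑ d ∈ F, R.toLin.free hn (degPart d a) x = 0 := by
  rw [dotProduct_sum]
  exact Finset.sum_eq_zero fun d hd =>
    wt_orth R ψ _ (hψ d hd) y _ hy (free_deg_wt hn R x χ hx d _ (degPart_mem d a))

theorem kin_sum_degPart (a : FA n) (d : Fin n → ℕ) :
    ∃ F : Finset (Fin n → ℕ), d ∈ F ∧ a = ∑ e ∈ F, degPart e a := by
  classical
  obtain ⟨F, hF⟩ := sum_degPart a
  by_cases hd : d ∈ F
  · exact ⟨F, hd, hF⟩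
  · refine ⟨insert d F, Finset.mem_insert_self _ _, ?_⟩
    have h0 : degPart d a = 0 := by
      rw [hF, map_sum]
      exact Finset.sum_eq_zero fun e he =>
        degPart_of_mem_ne d e (fun h => hd (h ▸ he)) _ (degPart_mem e a)
    rw [Finset.sum_insert hd, ← hF, h0, zero_add]

theorem kin_free_sum (hn : 2 ≤ n) (R : StarRep Ty.D n ι) (x : ι → ℂ) (a : FA n)
    (F : Finset (Fin n → ℕ)) (hF : a = ∑ e ∈ F, degPart e a) :
    ∑ e ∈ F, R.toLin.free hn (degPart e a) x = R.toLin.free hn a x := by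
  conv_rhs => rw [hF]
  rw [map_sum, LinearMap.sum_apply]

theorem kin_wt_ne (hn : 2 ≤ n) (χ : Vec n) {d e : Fin n → ℕ} (hne : e ≠ d) :
    χ - ∑ i, (d i : ℝ) • (simpleRD hn i).vec ≠ χ - ∑ i, (e i : ℝ) • (simpleRD hn i).vec :=
  fun h => hne (degVecR_injective hn e d (sub_right_inj.1 h).symm)

theorem free_degPart_zero (hn : 2 ≤ n) (R : StarRep Ty.D n ι) (x : ι → ℂ) (χ : Vec n)
    (hx : x ∈ R.wt χ) (a : FA n) (h : R.toLin.free hn a x = 0) (d : Fin n → ℕ) :
    R.toLin.free hn (degPart d a) x = 0 := by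
  classical
  obtain ⟨F, hdF, hF⟩ := kin_sum_degPart a d
  have hyw := free_deg_wt hn R x χ hx d _ (degPart_mem d a)
  have hsum := kin_free_sum hn R x a F hF
  rw [h, ← Finset.add_sum_erase F _ hdF] at hsum
  have h0 := kin_orth_sum hn R x χ hx a (F.erase d) _ _ hyw
    (fun e he => kin_wt_ne hn χ (Finset.ne_of_mem_erase he))
  have h1 := congrArg (fun t => star (R.toLin.free hn (degPart d a) x) ⬝ᵥ t) hsum
  simp only [dotProduct_add, h0, add_zero, dotProduct_zero] at h1
  exact (star_dot_self_eq_zero _).1 h1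

/-- the weight spaces of the cyclic module are spanned by the words of the right degree -/
theorem wt_words (hn : 2 ≤ n) (R : StarRep Ty.D n ι) (v : ι → ℂ) (lam : Vec n) (h : IsHW R v lam)
    (d : Fin n → ℕ) (x : ι → ℂ)
    (hx : x ∈ R.cyc v ⊓ R.wt (lam - ∑ i, (d i : ℝ) • (simpleRD hn i).vec)) :
    ∃ a ∈ degSpan d, R.toLin.free hn a v = x := by
  classical
  obtain ⟨hxc, hxw⟩ := Submodule.mem_inf.1 hx
  obtain ⟨-, hvwt, -⟩ := (isHW_iff R v lam).1 h
  obtain ⟨a, ha⟩ := cyc_words hn R v lam h x hxc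
  obtain ⟨F, hdF, hF⟩ := kin_sum_degPart a d
  refine ⟨degPart d a, degPart_mem d a, ?_⟩
  have hsum := kin_free_sum hn R v a F hF
  rw [ha, ← Finset.add_sum_erase F _ hdF] at hsum
  have hyw : x - R.toLin.free hn (degPart d a) v
      ∈ R.wt (lam - ∑ i, (d i : ℝ) • (simpleRD hn i).vec) :=
    Submodule.sub_mem _ hxw (free_deg_wt hn R v lam hvwt d _ (degPart_mem d a))
  have hyS : ∑ e ∈ F.erase d, R.toLin.free hn (degPart e a) v
      = x - R.toLin.free hn (degPart d a) v := by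
    rw [← hsum]
    abel
  have h0 := kin_orth_sum hn R v lam hvwt a (F.erase d) _ _ hyw
    (fun e he => kin_wt_ne hn lam (Finset.ne_of_mem_erase he))
  rw [hyS] at h0
  exact (sub_eq_zero.1 ((star_dot_self_eq_zero _).1 h0)).symm

/-- weights of the cyclic module which are not of the form `lam - ∑ d_i α_i` do not occur -/
theorem wt_words_none (hn : 2 ≤ n) (R : StarRep Ty.D n ι) (v : ι → ℂ) (lam : Vec n) (h : IsHW R v lam)
    (χ : Vec n) (hχ : ∀ d : Fin n → ℕ, χ ≠ lam - ∑ i, (d i : ℝ) • (simpleRD hn i).vec) (x : ι → ℂ)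
    (hx : x ∈ R.cyc v ⊓ R.wt χ) : x = 0 := by
  obtain ⟨hxc, hxw⟩ := Submodule.mem_inf.1 hx
  obtain ⟨-, hvwt, -⟩ := (isHW_iff R v lam).1 h
  obtain ⟨a, ha⟩ := cyc_words hn R v lam h x hxc
  obtain ⟨F, hF⟩ := sum_degPart a
  have hsum := kin_free_sum hn R v a F hF
  rw [ha] at hsum
  have h0 := kin_orth_sum hn R v lam hvwt a F x χ hxw (fun e _ => hχ e)
  rw [hsum] at h0
  exact (star_dot_self_eq_zero _).1 h0

end Claimed.Agent.R282
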