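import Claimed.Agent.R282.Rep.K.Inter

/-!
# Row 282, Rep/K, LEAF L-K-POLY : polynomial functions `ℂ → W` and the Casimir operator on the free algebra (statements by helper103), ~1100 lines
(two independent parts: part A = `polyIn_*` (~350 lines, pure algebra), part B = `casimir_wt`, `genPos_poly`, `cas_free` (~750 lines))

Part A.  `PolyIn g := ∃ J co, ∀ t, g t = ∑ j < J, t^j • co j`.  Products: Cauchy product (`Finset.sum_mul_sum`, reindex by `j + j'`; simplest: prove `PolyIn (fun t => t^j • w)`, closure under finite sums, and bilinearity).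
`polyIn_mem`: pass to `W ⧸ S`; if `g t₁ ∉ S` choose a linear functional `ψ` on `W ⧸ S` with `ψ (g t₁) ≠ 0` (`Module.exists_dual_forall_apply_ne_zero`-type lemma / `Submodule.exists_le_ker_of_notMem`); `p = ∑ ψ(co j) X^j ∈ ℂ[X]` has infinitely many roots (`Polynomial.eq_zero_of_infinite_isRoot`), so `p = 0`.
Part B.
* `casimir_wt`: `casimir = ∑ ρ(H_i)² + (1/2) ∑_(β ∈ RootD) ρ(e_β) ρ(e_β)ᴴ`.  `∑ ρ(H_i)² x = ⟨χ,χ⟩ x`.  Split the roots in positive ones and their opposites (`rootD_pos_or_neg`; exactly one holds; `β ↦ β.neg` is an involution of the index set `(i,j,si,sj) ↦ (i,j,!si,!sj)`).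
   `β` positive: `e e^* = e^* e + H_β` (`rootVec_bracket`, `R.bracket`, `R.star`); `β = γ.neg`: `e_β = - e_γ^*`, `e_β e_β^* = e_γ^* e_γ`.  `(1/2) ∑_(γ>0 in RootD) γ = 2ρ` (every positive root occurs twice in `RootD`; `halfV_posRoot2`, `two_rho2` or directly).
* `genPos_poly`: induction on `GenPos`: `simple i`: `P = - fgen i`; `bracket`: `P = P_X P_Y - P_Y P_X`, `(X Y - Y X)ᴴ = Yᴴ Xᴴ - Xᴴ Yᴴ`, `star (P_X P_Y) = star P_Y star P_X`; `neg`.  (`FreeAlgebra.star_ι`; `star` on `FreeAlgebra` is `ℂ`-linear and reverses products.)  `R.op (rootVec α_i)ᴴ = - f_i` (`rootVec_conjTranspose`).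
   `augI` = span of `u * fgen k` is closed under left multiplication, so under products.
* `cas_free`: choose `P γ` for the positive `γ` (`genPos_rootVec`, `genPos_poly`) and put `G c a = ∑_(γ>0 in RootD) star (P γ) * prEAct c (P γ) a`.
   (a) `t ↦ prEAct (c + t) P` is `PolyIn` in `Module.End ℂ (FA n)`: `FreeAlgebra.induction` on `P` with `prE_shift`, `polyIn_mul`; then `polyIn_apply`, `polyIn_map` (left multiplication), `polyIn_sum`.
   (b) `P γ = ∑ u_j * fgen k_j`: `prEAct c (u * fgen k) a = prEAct c u (prE c k a)`, and `prEAct c u` preserves `S` (`FreeAlgebra.induction` on `u`).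
   (c) `x = free a v ∈ cyc v ⊓ wt χ` (`free_mem_cyc`, `free_deg_wt`), `χ = lam - ∑ d_i α_i`.  `rep_casimir`: `casimir x = ⟨lam, lam+2ρ⟩ x`; `casimir_wt`; `e_γ^* e_γ x = free (star P * prEAct c P a) v` (`free_prEAct`, `genPos_poly`).
       `⟨lam,lam+2ρ⟩ - ⟨χ,χ+2ρ⟩ = 2 ∑ d_i c_i - ∑ d_i d_j A_ij + 2 ∑ d_i = casqD c d` (`dot_simple`, `simpleRD_rho`).
-/

set_option autoImplicit false

namespace Claimed.Agent.R282

open Claims.C0456 Matrix

variable {n : ℕ}
variable {ι : Type} [Fintype ι] [DecidableEq ι]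

/-! ## Part A : polynomial functions -/

section PolyA
variable {W W' : Type*} [AddCommGroup W] [Module ℂ W] [AddCommGroup W'] [Module ℂ W']

theorem kpa_ext (J K : ℕ) (hJK : J ≤ K) (co : ℕ → W) (t : ℂ) :
    ∑ i ∈ Finset.range K, t ^ i • (if i < J then co i else 0) =
      ∑ i ∈ Finset.range J, t ^ i • co i := by
  rw [← Finset.sum_subset (Finset.range_subset_range.2 hJK)]
  · apply Finset.sum_congr rfl
    intro i hi
    rw [if_pos (Finset.mem_range.1 hi)]
  · intro i _ hi
    rw [if_neg (fun h => hi (Finset.mem_range.2 h)), smul_zero]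

theorem kpa_mono (j : ℕ) (w : W) : PolyIn fun t : ℂ => t ^ j • w := by
  refine ⟨j + 1, fun i => if i = j then w else 0, fun t => ?_⟩
  rw [Finset.sum_eq_single j]
  · simp only [if_true]
  · intro i _ hi
    simp only [if_neg hi, smul_zero]
  · intro h
    exact absurd (Finset.mem_range.2 (Nat.lt_succ_self j)) h

theorem polyIn_const (w : W) : PolyIn fun _ : ℂ => w := by
  have := kpa_mono 0 w
  simpa using this

theorem polyIn_add (g g' : ℂ → W) (h : PolyIn g) (h' : PolyIn g') : PolyIn fun t => g t + g' t := by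
  obtain ⟨J, co, hg⟩ := h
  obtain ⟨J', co', hg'⟩ := h'
  refine ⟨J + J', fun i => (if i < J then co i else 0) + (if i < J' then co' i else 0), fun t => ?_⟩
  simp only [smul_add, Finset.sum_add_distrib]
  rw [kpa_ext J _ (Nat.le_add_right _ _), kpa_ext J' _ (Nat.le_add_left _ _), hg, hg']

theorem polyIn_sum {κ : Type*} (F : Finset κ) (g : κ → ℂ → W) (h : ∀ k ∈ F, PolyIn (g k)) :
    PolyIn fun t => ∑ k ∈ F, g k t := by
  classical
  induction F using Finset.induction_on with
  | empty =>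
    simp only [Finset.sum_empty]
    exact polyIn_const 0
  | insert a F ha ih =>
    simp only [Finset.sum_insert ha]
    exact polyIn_add _ _ (h a (Finset.mem_insert_self a F))
      (ih fun k hk => h k (Finset.mem_insert_of_mem hk))

theorem polyIn_map (L : W →ₗ[ℂ] W') (g : ℂ → W) (h : PolyIn g) : PolyIn fun t => L (g t) := by
  obtain ⟨J, co, hg⟩ := h
  refine ⟨J, fun i => L (co i), fun t => ?_⟩
  simp only [hg, map_sum, map_smul]

theorem polyIn_sub (g g' : ℂ → W) (h : PolyIn g) (h' : PolyIn g') : PolyIn fun t => g t - g' t := by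
  have h1 := polyIn_add _ _ h (polyIn_map (-LinearMap.id : W →ₗ[ℂ] W) g' h')
  simpa [sub_eq_add_neg] using h1

/-- bilinear maps -/
theorem kpa_bilin {W₁ W₂ W₃ : Type*} [AddCommGroup W₁] [Module ℂ W₁] [AddCommGroup W₂] [Module ℂ W₂]
    [AddCommGroup W₃] [Module ℂ W₃] (B : W₁ →ₗ[ℂ] W₂ →ₗ[ℂ] W₃) (g₁ : ℂ → W₁) (g₂ : ℂ → W₂)
    (h₁ : PolyIn g₁) (h₂ : PolyIn g₂) : PolyIn fun t => B (g₁ t) (g₂ t) := by
  obtain ⟨J, co, hg⟩ := h₁
  obtain ⟨J', co', hg'⟩ := h₂
  have e : (fun t => B (g₁ t) (g₂ t)) = fun t : ℂ => ∑ i ∈ Finset.range J, ∑ j ∈ Finset.range J',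
      t ^ (i + j) • B (co i) (co' j) := by
    funext t
    rw [hg, hg', map_sum B, LinearMap.sum_apply]
    apply Finset.sum_congr rfl
    intro i _
    rw [map_sum]
    apply Finset.sum_congr rfl
    intro j _
    rw [map_smul, map_smul, LinearMap.smul_apply, smul_smul, pow_add, mul_comm]
  rw [e]
  exact polyIn_sum _ _ fun i _ => polyIn_sum _ _ fun j _ => kpa_mono _ _

theorem kpa_id : PolyIn fun t : ℂ => t := by
  have := kpa_mono 1 (1 : ℂ)
  simpa using this

theorem polyIn_smul (p : ℂ → ℂ) (g : ℂ → W) (hp : PolyIn p) (h : PolyIn g) :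
    PolyIn fun t => p t • g t :=
  kpa_bilin (LinearMap.lsmul ℂ W) p g hp h

theorem polyIn_id_smul (g : ℂ → W) (h : PolyIn g) : PolyIn fun t => t • g t :=
  polyIn_smul _ g kpa_id h

theorem polyIn_apply (T : ℂ → Module.End ℂ W) (g : ℂ → W) (hT : PolyIn T) (h : PolyIn g) :
    PolyIn fun t => T t (g t) :=
  kpa_bilin (LinearMap.id : Module.End ℂ W →ₗ[ℂ] (W →ₗ[ℂ] W)) T g hT h

theorem polyIn_mul {A : Type*} [Ring A] [Algebra ℂ A] (g g' : ℂ → A) (h : PolyIn g) (h' : PolyIn g') :
    PolyIn fun t => g t * g' t :=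
  kpa_bilin (LinearMap.mul ℂ A) g g' h h'

/-- a polynomial function which takes its values in a subspace at all large natural numbers takes all its values there -/
theorem polyIn_mem (g : ℂ → W) (hg : PolyIn g) (S : Submodule ℂ W) (t₀ : ℕ)
    (h : ∀ t : ℕ, t₀ ≤ t → g (t : ℂ) ∈ S) (t : ℂ) : g t ∈ S := by
  by_contra hne
  obtain ⟨f, hf, hS⟩ := Submodule.exists_le_ker_of_notMem hne
  obtain ⟨J, co, hco⟩ := hg
  let p : Polynomial ℂ := ∑ j ∈ Finset.range J, Polynomial.C (f (co j)) * Polynomial.X ^ j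
  have hp : ∀ s : ℂ, p.eval s = f (g s) := by
    intro s
    rw [hco s, map_sum, Polynomial.eval_finsetSum]
    apply Finset.sum_congr rfl
    intro j _
    rw [map_smul, Polynomial.eval_mul, Polynomial.eval_C, Polynomial.eval_pow, Polynomial.eval_X,
      smul_eq_mul, mul_comm]
  have hp0 : p = 0 := by
    apply Polynomial.eq_zero_of_infinite_isRoot
    have hinf : (Set.range fun k : ℕ => ((t₀ + k : ℕ) : ℂ)).Infinite := by
      apply Set.infinite_range_of_injective
      intro a b hab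
      have hab' : ((t₀ + a : ℕ) : ℂ) = ((t₀ + b : ℕ) : ℂ) := hab
      have : t₀ + a = t₀ + b := by exact_mod_cast hab'
      omega
    refine hinf.mono ?_
    rintro _ ⟨k, rfl⟩
    show p.IsRoot _
    rw [Polynomial.IsRoot, hp]
    exact hS (h _ (Nat.le_add_right _ _))
  apply hf
  rw [← hp, hp0, Polynomial.eval_zero]

theorem kpa_lenSpan_mono {D D' : ℕ} (h : D ≤ D') : lenSpan n D ≤ lenSpan n D' := by
  apply Submodule.span_mono
  rintro _ ⟨w, hw, rfl⟩
  exact ⟨w, hw.trans h, rfl⟩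

theorem kpa_exists_len (a : FA n) : ∃ D, a ∈ lenSpan n D := by
  have ha : a ∈ Submodule.span ℂ (Set.range (wordMon ℂ n)) := by
    rw [wordMon_span]; trivial
  induction ha using Submodule.span_induction with
  | mem x hx =>
    obtain ⟨w, rfl⟩ := hx
    exact ⟨w.length, Submodule.subset_span ⟨w, le_rfl, rfl⟩⟩
  | zero => exact ⟨0, Submodule.zero_mem _⟩
  | add x y _ _ hx hy =>
    obtain ⟨D, hD⟩ := hx
    obtain ⟨D', hD'⟩ := hy
    exact ⟨max D D', Submodule.add_mem _ (kpa_lenSpan_mono (le_max_left _ _) hD)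
      (kpa_lenSpan_mono (le_max_right _ _) hD')⟩
  | smul c x _ hx =>
    obtain ⟨D, hD⟩ := hx
    exact ⟨D, Submodule.smul_mem _ c hD⟩

/-- all values of a polynomial function with values in the free algebra have bounded length -/
theorem polyIn_lenSpan (g : ℂ → FA n) (hg : PolyIn g) : ∃ D, ∀ t, g t ∈ lenSpan n D := by
  obtain ⟨J, co, hco⟩ := hg
  choose D hD using fun j => kpa_exists_len (co j)
  refine ⟨(Finset.range J).sup D, fun t => ?_⟩
  rw [hco]
  apply Submodule.sum_mem
  intro j hj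
  exact Submodule.smul_mem _ _ (kpa_lenSpan_mono (Finset.le_sup hj) (hD j))

end PolyA

/-! ## Part B : the Casimir operator -/

open scoped Classical in
/-- the Casimir operator on a weight vector -/
theorem casimir_wt (R : StarRep Ty.D n ι) (χ : Vec n) (x : ι → ℂ) (hx : x ∈ R.wt χ) :
    R.casimir.mulVec x = ((dot χ χ + 2 * dot χ (rhoV n) : ℝ) : ℂ) • x +
      ∑ i : Fin n, ∑ j : Fin n, ∑ si : Bool, ∑ sj : Bool,
        if h : i ≠ j then
          (if (⟨i, j, h, si, sj⟩ : RootD n).Pos then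
            R.op (rootVec ⟨i, j, h, si, sj⟩)ᴴ (R.op (rootVec ⟨i, j, h, si, sj⟩) x) else 0)
        else 0 := by
  exact rwy_cas_wt R χ x hx

/-- elements without constant term, written with the last letter on the right -/
noncomputable def augI (n : ℕ) : Submodule ℂ (FA n) :=
  Submodule.span ℂ {x | ∃ (u : FA n) (k : Fin n), x = u * fgen ℂ n k}

theorem kcs_augI_mul_left (u a : FA n) (ha : a ∈ augI n) : u * a ∈ augI n := by
  unfold augI at ha ⊢
  induction ha using Submodule.span_induction with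
  | mem x hx =>
    obtain ⟨u', k, rfl⟩ := hx
    exact Submodule.subset_span ⟨u * u', k, by rw [mul_assoc]⟩
  | zero => rw [mul_zero]; exact Submodule.zero_mem _
  | add x y _ _ hx hy => rw [mul_add]; exact Submodule.add_mem _ hx hy
  | smul c x _ hx => rw [mul_smul_comm]; exact Submodule.smul_mem _ c hx

theorem kcs_op_neg (R : StarRep Ty.D n ι) (X : Matrix (Ix n) (Ix n) ℂ) :
    R.op (-X) = - R.op X := by
  apply LinearMap.ext
  intro a
  rw [rwd_op_neg]; rfl

theorem kcs_op_bracket (R : StarRep Ty.D n ι) (X Y : Matrix (Ix n) (Ix n) ℂ) (hX : Ty.D.InG X)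
    (hY : Ty.D.InG Y) : R.op (X * Y - Y * X) = R.op X * R.op Y - R.op Y * R.op X := by
  apply LinearMap.ext
  intro a
  rw [op_bracket R X Y hX hY]; rfl

theorem kcs_free_fgen (hn : 2 ≤ n) (R : StarRep Ty.D n ι) (i : Fin n) :
    R.toLin.free hn (fgen ℂ n i) = R.op (rootVec (simpleRD hn i).neg) := by
  apply LinearMap.ext
  intro a
  exact free_fgen hn R i a

theorem kcs_star_fgen (i : Fin n) : star (fgen ℂ n i) = fgen ℂ n i := by
  unfold fgen
  exact FreeAlgebra.star_ι i

/-- the elements of `GenPos` are noncommutative polynomials in the `- e_k`, their adjoints are the reversed polynomials in the `f_k` -/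
theorem genPos_poly (hn : 2 ≤ n) (X : Matrix (Ix n) (Ix n) ℂ) (h : GenPos hn X) :
    ∃ P : FA n, P ∈ augI n ∧ ∀ (ι : Type) [Fintype ι] [DecidableEq ι] (R : StarRep Ty.D n ι),
      R.op X = R.freeE hn P ∧ R.op Xᴴ = R.toLin.free hn (star P) := by
  induction h with
  | simple i =>
    refine ⟨- fgen ℂ n i, ?_, ?_⟩
    · apply Submodule.neg_mem
      exact Submodule.subset_span ⟨1, i, by rw [one_mul]⟩
    · intro ι _ _ R
      constructor
      · rw [map_neg]
        simp only [StarRep.freeE, fgen, FreeAlgebra.lift_ι_apply, neg_neg]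
      · rw [star_neg, kcs_star_fgen, map_neg, kcs_free_fgen, rootVec_conjTranspose, kcs_op_neg]
  | bracket X Y hX hY h1 h2 =>
    obtain ⟨P, hP, hPR⟩ := h1
    obtain ⟨Q, hQ, hQR⟩ := h2
    have iX := genPos_inG hn X hX
    have iY := genPos_inG hn Y hY
    refine ⟨P * Q - Q * P, ?_, ?_⟩
    · exact Submodule.sub_mem _ (kcs_augI_mul_left P Q hQ) (kcs_augI_mul_left Q P hP)
    · intro ι _ _ R
      constructor
      · rw [kcs_op_bracket R X Y iX iY, (hPR ι R).1, (hQR ι R).1, map_sub, map_mul, map_mul]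
      · rw [conjTranspose_sub, conjTranspose_mul, conjTranspose_mul,
          kcs_op_bracket R _ _ (inG_conjTranspose Y iY) (inG_conjTranspose X iX),
          (hPR ι R).2, (hQR ι R).2, star_sub, star_mul, star_mul, map_sub, map_mul, map_mul]
  | neg X _ h1 =>
    obtain ⟨P, hP, hPR⟩ := h1
    refine ⟨-P, Submodule.neg_mem _ hP, ?_⟩
    intro ι _ _ R
    constructor
    · rw [kcs_op_neg, (hPR ι R).1, map_neg]
    · rw [conjTranspose_neg, kcs_op_neg, (hPR ι R).2, star_neg, map_neg]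

open scoped Classical in
/-- a noncommutative polynomial representing the positive root vector `rootVec β` -/
noncomputable def kcsP (hn : 2 ≤ n) (β : RootD n) : FA n :=
  if h : β.Pos then Classical.choose (genPos_poly hn (rootVec β) (genPos_rootVec hn β h)) else 0

theorem kcs_P_aug (hn : 2 ≤ n) (β : RootD n) : kcsP hn β ∈ augI n := by
  unfold kcsP
  split_ifs with h
  · exact (Classical.choose_spec (genPos_poly hn (rootVec β) (genPos_rootVec hn β h))).1
  · exact Submodule.zero_mem _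

theorem kcs_P_spec (hn : 2 ≤ n) (β : RootD n) (h : β.Pos) (R : StarRep Ty.D n ι) :
    R.op (rootVec β) = R.freeE hn (kcsP hn β) ∧
      R.op (rootVec β)ᴴ = R.toLin.free hn (star (kcsP hn β)) := by
  unfold kcsP
  rw [dif_pos h]
  exact (Classical.choose_spec (genPos_poly hn (rootVec β) (genPos_rootVec hn β h))).2 ι R

theorem kcs_P_zero (hn : 2 ≤ n) (β : RootD n) (h : ¬ β.Pos) : kcsP hn β = 0 := by
  unfold kcsP
  rw [dif_neg h]

/-- the Casimir operator (minus its scalar part) on the free algebra -/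
noncomputable def kcsG (hn : 2 ≤ n) (c : Fin n → ℂ) : FA n →ₗ[ℂ] FA n :=
  rwySum (fun β : RootD n => LinearMap.mulLeft ℂ (star (kcsP hn β)) ∘ₗ prEAct c (kcsP hn β))

theorem kcs_G_apply (hn : 2 ≤ n) (c : Fin n → ℂ) (a : FA n) :
    kcsG hn c a = rwySum (fun β : RootD n => star (kcsP hn β) * prEAct c (kcsP hn β) a) := by
  have h := rwy_sum_map (LinearMap.applyₗ (R := ℂ) (M₂ := FA n) a).toAddMonoidHom
    (fun β : RootD n => LinearMap.mulLeft ℂ (star (kcsP hn β)) ∘ₗ prEAct c (kcsP hn β))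
  exact h

theorem kcs_sum_mem {W : Type} [AddCommGroup W] [Module ℂ W] (S : Submodule ℂ W)
    (F : RootD n → W) (h : ∀ β, F β ∈ S) : rwySum F ∈ S := by
  rw [rwy_sum_def]
  refine Submodule.sum_mem _ fun i _ => Submodule.sum_mem _ fun j _ =>
    Submodule.sum_mem _ fun si _ => Submodule.sum_mem _ fun sj _ => ?_
  split_ifs with hij
  · exact h _
  · exact Submodule.zero_mem _

theorem kcs_sum_poly {W : Type} [AddCommGroup W] [Module ℂ W] (g : RootD n → ℂ → W)
    (h : ∀ β, PolyIn (g β)) : PolyIn fun t => rwySum (fun β => g β t) := by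
  simp only [rwy_sum_def]
  refine polyIn_sum _ _ fun i _ => polyIn_sum _ _ fun j _ =>
    polyIn_sum _ _ fun si _ => polyIn_sum _ _ fun sj _ => ?_
  by_cases hij : i ≠ j
  · simp only [dif_pos hij]
    exact h _
  · simp only [dif_neg hij]
    exact polyIn_const 0

theorem kcs_act_poly (c : Fin n → ℂ) (P : FA n) :
    PolyIn fun t : ℂ => prEAct (fun i => c i + t) P := by
  induction P using FreeAlgebra.induction with
  | grade0 r =>
    simp only [AlgHom.commutes]
    exact polyIn_const _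
  | grade1 k =>
    simp only [prEAct, FreeAlgebra.lift_ι_apply, prE_shift]
    exact polyIn_add _ _ (polyIn_const _) (polyIn_id_smul _ (polyIn_const _))
  | mul a b ha hb =>
    simp only [map_mul]
    exact polyIn_mul _ _ ha hb
  | add a b ha hb =>
    simp only [map_add]
    exact polyIn_add _ _ ha hb

theorem kcs_G_poly (hn : 2 ≤ n) (c : Fin n → ℂ) (a : FA n) :
    PolyIn fun t : ℂ => kcsG hn (fun i => c i + t) a := by
  simp only [kcs_G_apply]
  refine kcs_sum_poly _ fun β => ?_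
  exact polyIn_map (LinearMap.mulLeft ℂ (star (kcsP hn β))) _
    (polyIn_apply _ _ (kcs_act_poly c (kcsP hn β)) (polyIn_const a))

theorem kcs_act_stable (c : Fin n → ℂ) (S : Submodule ℂ (FA n))
    (hE : ∀ k, ∀ a ∈ S, prE c k a ∈ S) (u : FA n) : ∀ a ∈ S, prEAct c u a ∈ S := by
  induction u using FreeAlgebra.induction with
  | grade0 r =>
    intro a ha
    rw [AlgHom.commutes, Module.algebraMap_end_apply]
    exact S.smul_mem r ha
  | grade1 k =>
    intro a ha
    simp only [prEAct, FreeAlgebra.lift_ι_apply]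
    exact hE k a ha
  | mul x y hx hy =>
    intro a ha
    rw [map_mul, Module.End.mul_apply]
    exact hx _ (hy a ha)
  | add x y hx hy =>
    intro a ha
    rw [map_add, LinearMap.add_apply]
    exact S.add_mem (hx a ha) (hy a ha)

theorem kcs_act_aug (c : Fin n → ℂ) (S : Submodule ℂ (FA n))
    (hE : ∀ k, ∀ a ∈ S, prE c k a ∈ S) (a : FA n) (ha : ∀ k, prE c k a ∈ S) (P : FA n)
    (hP : P ∈ augI n) : prEAct c P a ∈ S := by
  unfold augI at hP
  induction hP using Submodule.span_induction with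
  | mem x hx =>
    obtain ⟨u, k, rfl⟩ := hx
    rw [map_mul, Module.End.mul_apply]
    have h1 : prEAct c (fgen ℂ n k) a = prE c k a := by
      simp only [prEAct, fgen, FreeAlgebra.lift_ι_apply]
    rw [h1]
    exact kcs_act_stable c S hE u _ (ha k)
  | zero => rw [map_zero, LinearMap.zero_apply]; exact S.zero_mem
  | add x y _ _ hx hy => rw [map_add, LinearMap.add_apply]; exact S.add_mem hx hy
  | smul r x _ hx => rw [map_smul, LinearMap.smul_apply]; exact S.smul_mem r hx

theorem kcs_G_stable (hn : 2 ≤ n) (c : Fin n → ℂ) (S : Submodule ℂ (FA n))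
    (hE : ∀ k, ∀ a ∈ S, prE c k a ∈ S) (hL : ∀ u, ∀ a ∈ S, u * a ∈ S) (a : FA n)
    (ha : ∀ k, prE c k a ∈ S) : kcsG hn c a ∈ S := by
  rw [kcs_G_apply]
  exact kcs_sum_mem S _ fun β => hL _ _ (kcs_act_aug c S hE a ha _ (kcs_P_aug hn β))

theorem kcs_dot_sum_left (d : Fin n → ℝ) (u : Fin n → Vec n) (y : Vec n) :
    dot (∑ i, d i • u i) y = ∑ i, d i * dot (u i) y := by
  simp only [dot, Finset.sum_apply, Pi.smul_apply, smul_eq_mul, Finset.sum_mul, Finset.mul_sum]
  rw [Finset.sum_comm]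
  refine Finset.sum_congr rfl fun i _ => Finset.sum_congr rfl fun j _ => ?_
  ring

/-- the scalar -/
theorem kcs_scalar (hn : 2 ≤ n) (lam : Vec n) (c : Fin n → ℂ)
    (hc : ∀ k, c k = ((dot lam (simpleRD hn k).vec : ℝ) : ℂ)) (d : Fin n → ℕ) :
    ((dot lam lam + 2 * dot lam (rhoV n) : ℝ) : ℂ) -
      ((dot (lam - ∑ i, (d i : ℝ) • (simpleRD hn i).vec) (lam - ∑ i, (d i : ℝ) • (simpleRD hn i).vec)
        + 2 * dot (lam - ∑ i, (d i : ℝ) • (simpleRD hn i).vec) (rhoV n) : ℝ) : ℂ) = casqD c d := by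
  have h1 : dot (∑ i, (d i : ℝ) • (simpleRD hn i).vec) (rhoV n) = ∑ i, (d i : ℝ) := by
    rw [kcs_dot_sum_left]
    simp only [simpleRD_rho, mul_one]
  have h2 : dot (∑ i, (d i : ℝ) • (simpleRD hn i).vec) lam =
      ∑ i, (d i : ℝ) * dot lam (simpleRD hn i).vec := by
    rw [kcs_dot_sum_left]
    refine Finset.sum_congr rfl fun i _ => ?_
    rw [dot_comm]
  have h3 : dot (∑ i, (d i : ℝ) • (simpleRD hn i).vec) (∑ i, (d i : ℝ) • (simpleRD hn i).vec) =
      ∑ i, (d i : ℝ) * (dsh d i : ℝ) := by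
    rw [kcs_dot_sum_left]
    refine Finset.sum_congr rfl fun i _ => ?_
    rw [dot_comm, kcs_dot_sum_left, dsh]
    push_cast
    congr 1
    refine Finset.sum_congr rfl fun j _ => ?_
    rw [dot_simple]
  have h4 : casqD c d = ((∑ i, (d i : ℝ) * (2 * dot lam (simpleRD hn i).vec + 2 - (dsh d i : ℝ)) : ℝ) : ℂ) := by
    unfold casqD
    push_cast
    refine Finset.sum_congr rfl fun i _ => ?_
    rw [hc]
  rw [h4, ← Complex.ofReal_sub]
  congr 1
  rw [dot_sub_left, dot_sub_right, dot_sub_right, dot_sub_left, h1, h2, h3,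
    dot_comm lam (∑ i, (d i : ℝ) • (simpleRD hn i).vec), h2]
  simp only [mul_sub, mul_add, Finset.sum_sub_distrib, Finset.sum_add_distrib]
  simp only [← Finset.sum_mul]
  have h5 : ∑ i, (d i : ℝ) * (2 * dot lam (simpleRD hn i).vec) =
      2 * ∑ i, (d i : ℝ) * dot lam (simpleRD hn i).vec := by
    rw [Finset.mul_sum]
    refine Finset.sum_congr rfl fun i _ => ?_
    ring
  rw [h5]
  ring

theorem kcs_G_free (hn : 2 ≤ n) (R : StarRep Ty.D n ι) (v : ι → ℂ) (lam : Vec n)
    (h : IsHW R v lam) (c : Fin n → ℂ) (hc : ∀ k, c k = ((dot lam (simpleRD hn k).vec : ℝ) : ℂ))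
    (d : Fin n → ℕ) (a : FA n) (ha : a ∈ degSpan d) :
    R.toLin.free hn (kcsG hn c a) v = casqD c d • R.toLin.free hn a v := by
  classical
  obtain ⟨-, hvwt, -⟩ := (isHW_iff R v lam).1 h
  have hx1 := free_mem_cyc hn R v a
  have hx2 := free_deg_wt hn R v lam hvwt d a ha
  have e1 := rep_casimir R v lam h _ hx1
  have e2 := rwy_cas_wt R _ _ hx2
  have e3 : R.toLin.free hn (kcsG hn c a) v = rwySum (fun β : RootD n => if β.Pos then
        R.op (rootVec β)ᴴ (R.op (rootVec β) (R.toLin.free hn a v)) else 0) := by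
    rw [kcs_G_apply]
    have h1 := rwy_sum_map
      ((LinearMap.applyₗ (R := ℂ) (M₂ := ι → ℂ) v).comp (R.toLin.free hn).toLinearMap).toAddMonoidHom
      (fun β : RootD n => star (kcsP hn β) * prEAct c (kcsP hn β) a)
    refine h1.trans (rwy_sum_congr _ _ fun β => ?_)
    show R.toLin.free hn (star (kcsP hn β) * prEAct c (kcsP hn β) a) v = _
    by_cases hβ : β.Pos
    · rw [if_pos hβ, map_mul, Module.End.mul_apply, free_prEAct hn R v lam h c hc,
        (kcs_P_spec hn β hβ R).1, (kcs_P_spec hn β hβ R).2]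
    · rw [if_neg hβ, kcs_P_zero hn β hβ, star_zero, zero_mul, map_zero, LinearMap.zero_apply]
  rw [e3, ← kcs_scalar hn lam c hc d, sub_smul, ← e1, e2]
  abel

/-- generates the equation lemmas of the definitions of this file here (rule 6) -/
theorem kcs_eqns : True := by
  have := @kcsP.eq_1
  have := @kcsG.eq_1
  have := @augI.eq_1
  trivial

/-- **the Casimir operator on the free algebra** -/
theorem cas_free (hn : 2 ≤ n) : ∃ G : (Fin n → ℂ) → FA n →ₗ[ℂ] FA n,
    (∀ (c : Fin n → ℂ) (a : FA n), PolyIn fun t : ℂ => G (fun i => c i + t) a) ∧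
    (∀ (c : Fin n → ℂ) (S : Submodule ℂ (FA n)), (∀ k, ∀ a ∈ S, prE c k a ∈ S) →
      (∀ u, ∀ a ∈ S, u * a ∈ S) → ∀ a, (∀ k, prE c k a ∈ S) → G c a ∈ S) ∧
    (∀ (ι : Type) [Fintype ι] [DecidableEq ι] (R : StarRep Ty.D n ι) (v : ι → ℂ) (lam : Vec n),
      IsHW R v lam → ∀ c : Fin n → ℂ, (∀ k, c k = ((dot lam (simpleRD hn k).vec : ℝ) : ℂ)) →
      ∀ (d : Fin n → ℕ) (a : FA n), a ∈ degSpan d →
        R.toLin.free hn (G c a) v = casqD c d • R.toLin.free hn a v) := by
  refine ⟨kcsG hn, kcs_G_poly hn, kcs_G_stable hn, ?_⟩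
  intro ι _ _ R v lam h c hc d a ha
  exact kcs_G_free hn R v lam h c hc d a ha

end Claimed.Agent.R282
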