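import Claimed.Agent.R282.Rep.K.Poly
import Claimed.Agent.R282.Rep.T.Wcf

/-!
# Row 282, Rep/K, LEAF L-K-STABLE : the stable range (statements by helper103), ~900 lines
(two independent parts: part A = `kostant_finite`, `prd_dim_spec`, `kp_card_le`, `kostant_stable` (combinatorics), part B = `mult_stable`, `stable_deg`, `stable_faithful` (linear algebra))

Part A.
* `kostant_finite`: every `posRoot2` has pairing `≥ 2` with `ρ' = (n, n-1, .., 1)`, so `2 * c r ≤ β · ρ'`: the set injects in a finite product of `Fin`'s / `Set.Finite.pi`.  (L-C-KOSTINV has proved the same fact; cite it if it is public.)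
* `prd_dim_spec`: `e_a - e_b = ∑_(a ≤ i < b) α_i`; `e_a + e_b = ∑_(a ≤ i < n-2) α_i + ∑_(b ≤ i < n-1) α_i + α_(n-1)`; telescoping sums, coordinatewise.
* `kp_card_le`: injection `KP n d → {c // ∑ c r • posRoot2 .. = 2 • degVec d}`, `s ↦ (r ↦ s.count ⟨(r.2.2, r.1, r.2.1), _⟩)`; `∑_r count • posRoot2 = 2 • degVec (∑ dim)` by `Multiset.induction`; `Nat.card_le_card_of_injective` needs `kostant_finite`.
* `kostant_stable`: `t₀ = 4 D`.  In `altWD` the term `(σ, s) = (1, false)` gives `kostantD (2 • degVec d)`.  For the other even `(σ, s)`: `x = w δ' - δ' + 2 • degVec d`, `δ' = M + (t+1) ρ₂`.  If `kostantD x ≠ 0` then `InQplus x`, so `0 ≤ ∑ x_i ρ₂_i` (`qplus_pair_nonneg`, `rho2_dominant`).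
   But `∑ (δ' - wδ')_i ρ₂_i = ∑ (M - wM)_i ρ₂_i + (t+1) ∑ (ρ₂ - wρ₂)_i ρ₂_i ≥ 0 + (t+1)` (`dom_sub_mem`, `qplus_pair_nonneg`, `qplus_pair_pos`, `rho2_reg`, `spa_stab`: `wρ₂ ≠ ρ₂`) and `∑ (2 • degVec d)_i ρ₂_i = 4 ∑ d_i ≤ 4 D`.
Part B.
* `mult_stable`: `rep_wcf` + `weylChar_kostant` + `kostant_stable` + `halfV_degVec`, `halfV_sub` (`chZ γ = mult (halfV γ)`).
* `stable_deg`: `U = span (range fun s : KP n d => pbwMon ℂ n s.1)`, `finrank U ≤ card (KP n d) ≤ kostantD`.  `ev a = free a v`.  Every word of degree `d` is in `U ⊔ serreSpan` (`k2c_span`, `IsUnit (2 : ℂ)`), so `ev (degSpan d) ≤ ev U` (`free_serreSpan`); `ev (degSpan d) ⊇ cyc v ⊓ wt (..)` (`wt_words`) has dimension `kostantD`.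
   So `finrank (ev U) ≥ finrank U`: `ev` is injective on `U`.  `a = u + s`, `ev a = 0` gives `ev u = 0`, `u = 0`, `a = s ∈ serreSpan`.
* `stable_faithful`: `a = ∑ degPart d a` (`sum_degPart`), `free (degPart d a) v = 0` (`free_degPart_zero`), `degPart d a = 0` unless `∑ d ≤ D` (`degPart_lenSpan`), `stable_deg`.
-/

set_option autoImplicit false

namespace Claimed.Agent.R282

open Claims.C0456 Matrix

variable {n : ℕ}

/-! ## Part A -/

theorem kostant_finite (β : Fin n → ℤ) :
    Finite {c : {r : Fin n × Fin n × Bool // r.1 < r.2.1} → ℕ //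
      ∑ r, c r • posRoot2 r.1.1 r.1.2.1 r.1.2.2 = β} := by
  classical
  set B : ℕ := (∑ i, β i * rho2 n i).toNat with hB
  have hb : ∀ c : {r : Fin n × Fin n × Bool // r.1 < r.2.1} → ℕ,
      ∑ r, c r • posRoot2 r.1.1 r.1.2.1 r.1.2.2 = β → ∀ r, c r ≤ B := by
    intro c hc r
    have h1 := wdc_pair_sum c (rho2 n)
    rw [hc] at h1
    have h2 : (c r : ℤ) ≤ ∑ r, (c r : ℤ) * ∑ i, posRoot2 r.1.1 r.1.2.1 r.1.2.2 i * rho2 n i := by
      calc (c r : ℤ) ≤ (c r : ℤ) * ∑ i, posRoot2 r.1.1 r.1.2.1 r.1.2.2 i * rho2 n i :=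
            le_mul_of_one_le_right (Int.natCast_nonneg _)
              (wdc_root_pair_pos _ _ r.2 _ (rho2 n) rho2_reg)
        _ ≤ _ := Finset.single_le_sum
            (f := fun r : {r : Fin n × Fin n × Bool // r.1 < r.2.1} =>
              (c r : ℤ) * ∑ i, posRoot2 r.1.1 r.1.2.1 r.1.2.2 i * rho2 n i)
            (fun r _ => mul_nonneg (Int.natCast_nonneg _)
              (wdc_root_pair_pos _ _ r.2 _ (rho2 n) rho2_reg).le) (Finset.mem_univ r)
    omega
  apply Finite.of_injective (fun c : {c : {r : Fin n × Fin n × Bool // r.1 < r.2.1} → ℕ //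
      ∑ r, c r • posRoot2 r.1.1 r.1.2.1 r.1.2.2 = β} => fun r =>
        (⟨c.1 r, Nat.lt_succ_of_le (hb c.1 c.2 r)⟩ : Fin (B + 1)))
  intro c c' h
  apply Subtype.ext
  funext r
  have := congrFun h r
  simpa using congrArg Fin.val this

theorem kostant_ne_zero (β : Fin n → ℤ) (h : kostantD β ≠ 0) : InQplus β := by
  exact ckf_kostant_ne_zero h

/-- extension by zero -/
def ksaX (d : Fin n → ℕ) (i : ℕ) : ℤ := if h : i < n then (d ⟨i, h⟩ : ℤ) else 0

theorem ksa_degVec_sum (d : Fin n → ℕ) (k : Fin n) :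
    degVec d k = ∑ i, (d i : ℤ) * simpleRootD n i k := by
  simp [degVec, Finset.sum_apply]

theorem ksa_degVec_apply (d : Fin n → ℕ) (k : Fin n) :
    degVec d k = (if (k : ℕ) + 1 < n then ksaX d k else 0)
      - (if 0 < (k : ℕ) then ksaX d (k - 1) else 0)
      + (if (k : ℕ) + 2 = n ∨ (k : ℕ) + 1 = n then ksaX d (n - 1) else 0) := by
  classical
  have hk := k.2
  have e : ∀ i : Fin n, (d i : ℤ) * simpleRootD n i k =
      (if i = k then (if (k : ℕ) + 1 < n then (d i : ℤ) else 0) else 0)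
      - (if (i : ℕ) + 1 = k then (d i : ℤ) else 0)
      + (if (i : ℕ) + 1 = n then
          (if (k : ℕ) + 2 = n ∨ (k : ℕ) + 1 = n then (d i : ℤ) else 0) else 0) := by
    intro i
    have hi := i.2
    unfold simpleRootD
    simp only [Fin.ext_iff]
    split_ifs <;> omega
  rw [ksa_degVec_sum]
  simp only [e, Finset.sum_add_distrib, Finset.sum_sub_distrib]
  congr 1
  · congr 1
    · rw [Finset.sum_ite_eq', if_pos (Finset.mem_univ k)]
      simp [ksaX]
    · by_cases h0 : 0 < (k : ℕ)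
      · rw [if_pos h0, Finset.sum_eq_single (⟨(k : ℕ) - 1, by omega⟩ : Fin n)]
        · rw [if_pos (show (k : ℕ) - 1 + 1 = k by omega), ksaX, dif_pos (by omega)]
        · intro i _ hi
          rw [if_neg]
          intro h
          apply hi
          apply Fin.ext
          show (i : ℕ) = (k : ℕ) - 1
          omega
        · intro h
          exact absurd (Finset.mem_univ _) h
      · rw [if_neg h0]
        refine Finset.sum_eq_zero fun i _ => ?_
        rw [if_neg]
        omega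
  · rw [Finset.sum_eq_single (⟨n - 1, by omega⟩ : Fin n)]
    · rw [if_pos (show n - 1 + 1 = n by omega), ksaX, dif_pos (by omega)]
    · intro i _ hi
      rw [if_neg]
      intro h
      apply hi
      apply Fin.ext
      show (i : ℕ) = n - 1
      omega
    · intro h
      exact absurd (Finset.mem_univ _) h

theorem prd_dim_spec (hn : 2 ≤ n) (β : PRD n) :
    posRoot2 β.1.2.1 β.1.2.2 β.1.1 = 2 • degVec β.dim := by
  obtain ⟨⟨b, i, j⟩, hij⟩ := β
  have hij' : (i : ℕ) < j := hij
  have hj := j.2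
  funext k
  have hk := k.2
  rw [show (2 • degVec (PRD.dim ⟨(b, i, j), hij⟩)) k = 2 * degVec (PRD.dim ⟨(b, i, j), hij⟩) k from by
    simp]
  rw [ksa_degVec_apply]
  cases b
  · simp only [ksaX, PRD.dim, posRoot2, Fin.ext_iff, Bool.false_eq_true, if_false, dite_eq_ite,
      Nat.cast_ite, Nat.cast_one, Nat.cast_zero]
    split_ifs <;> omega
  · have hX : ∀ m : ℕ, ksaX (PRD.dim ⟨(true, i, j), hij⟩) m =
        if m < n then (if m + 1 = n then 1 else
          (if (i : ℕ) ≤ m ∧ m + 2 < n then 1 else 0) + (if (j : ℕ) ≤ m then 1 else 0)) else 0 := by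
      intro m
      unfold ksaX
      by_cases hm : m < n
      · rw [dif_pos hm, if_pos hm]
        simp only [PRD.dim, if_true]
        split_ifs <;> simp
      · rw [dif_neg hm, if_neg hm]
    rw [hX, hX, hX]
    unfold posRoot2
    rw [if_pos rfl]
    simp only [Fin.ext_iff]
    omega

theorem ksa_degVec_add (d d' : Fin n → ℕ) : degVec (d + d') = degVec d + degVec d' := by
  simp [degVec, add_smul, Finset.sum_add_distrib]

theorem ksa_degVec_zero : degVec (0 : Fin n → ℕ) = 0 := by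
  simp [degVec]

/-- the two index sets of the positive roots -/
def ksaPhi (r : {r : Fin n × Fin n × Bool // r.1 < r.2.1}) : PRD n :=
  ⟨(r.1.2.2, r.1.1, r.1.2.1), r.2⟩

theorem ksa_phi_surj : Function.Surjective (ksaPhi (n := n)) :=
  fun β => ⟨⟨(β.1.2.1, β.1.2.2, β.1.1), β.2⟩, rfl⟩

theorem ksa_count_sum (hn : 2 ≤ n) (s : Multiset (PRD n)) :
    ∑ r : {r : Fin n × Fin n × Bool // r.1 < r.2.1},
      s.count (ksaPhi r) • posRoot2 r.1.1 r.1.2.1 r.1.2.2 = 2 • degVec (s.map PRD.dim).sum := by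
  induction s using Multiset.induction_on with
  | empty => simp [ksa_degVec_zero]
  | cons β s ih =>
    rw [Multiset.map_cons, Multiset.sum_cons, ksa_degVec_add, smul_add, ← ih, ← prd_dim_spec hn β]
    simp only [Multiset.count_cons, add_smul, Finset.sum_add_distrib]
    rw [add_comm]
    congr 1
    rw [Finset.sum_eq_single ⟨(β.1.2.1, β.1.2.2, β.1.1), β.2⟩]
    · rw [if_pos (show ksaPhi ⟨(β.1.2.1, β.1.2.2, β.1.1), β.2⟩ = β from rfl), one_smul]
    · intro r _ hr
      rw [if_neg, zero_smul]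
      intro h
      apply hr
      rw [← h]
      rfl
    · intro h
      exact absurd (Finset.mem_univ _) h

theorem kp_card_le (hn : 2 ≤ n) (d : Fin n → ℕ) :
    Fintype.card (KP n d) ≤ kostantD (2 • degVec d) := by
  have := kostant_finite (2 • degVec d)
  rw [← Nat.card_eq_fintype_card]
  unfold kostantD
  refine Nat.card_le_card_of_injective (fun s : KP n d =>
    (⟨fun r => s.1.count (ksaPhi r), by rw [ksa_count_sum hn, s.2]⟩ :
      {c : {r : Fin n × Fin n × Bool // r.1 < r.2.1} → ℕ //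
        ∑ r, c r • posRoot2 r.1.1 r.1.2.1 r.1.2.2 = 2 • degVec d})) ?_
  intro s s' h
  apply Subtype.ext
  ext β
  obtain ⟨r, rfl⟩ := ksa_phi_surj β
  exact congrFun (congrArg Subtype.val h) r

theorem ksa_simple_rho (hn : 2 ≤ n) (i : Fin n) : ∑ k, simpleRootD n i k * rho2 n k = 2 := by
  classical
  have hi := i.2
  by_cases h : (i : ℕ) + 1 < n
  · have e : ∀ k : Fin n, simpleRootD n i k * rho2 n k =
        (if k = i then rho2 n k else 0) - (if k = ⟨i + 1, h⟩ then rho2 n k else 0) := by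
      intro k
      unfold simpleRootD
      rw [if_pos h]
      simp only [Fin.ext_iff]
      split_ifs <;> ring
    simp only [e, Finset.sum_sub_distrib, Finset.sum_ite_eq', Finset.mem_univ, if_true]
    simp only [rho2]
    push_cast
    ring
  · have e : ∀ k : Fin n, simpleRootD n i k * rho2 n k =
        (if k = ⟨n - 2, by omega⟩ then rho2 n k else 0) +
          (if k = ⟨n - 1, by omega⟩ then rho2 n k else 0) := by
      intro k
      have hk := k.2
      unfold simpleRootD
      rw [if_neg h]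
      simp only [Fin.ext_iff]
      have e1 : ((k : ℕ) + 2 = n) ↔ ((k : ℕ) = n - 2) := by omega
      have e2 : ((k : ℕ) + 1 = n) ↔ ((k : ℕ) = n - 1) := by omega
      simp only [e1, e2]
      split_ifs <;> ring
    simp only [e, Finset.sum_add_distrib, Finset.sum_ite_eq', Finset.mem_univ, if_true]
    simp only [rho2]
    have h1 : ((n - 2 : ℕ) : ℤ) = (n : ℤ) - 2 := by omega
    have h2 : ((n - 1 : ℕ) : ℤ) = (n : ℤ) - 1 := by omega
    rw [h1, h2]
    ring

theorem ksa_degVec_rho (hn : 2 ≤ n) (d : Fin n → ℕ) :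
    ∑ k, degVec d k * rho2 n k = 2 * ∑ i, (d i : ℤ) := by
  simp only [ksa_degVec_sum, Finset.sum_mul]
  rw [Finset.sum_comm, Finset.mul_sum]
  refine Finset.sum_congr rfl fun i _ => ?_
  have := ksa_simple_rho hn i
  calc ∑ x, (d i : ℤ) * simpleRootD n i x * rho2 n x
      = (d i : ℤ) * ∑ x, simpleRootD n i x * rho2 n x := by
        rw [Finset.mul_sum]
        exact Finset.sum_congr rfl fun k _ => by ring
    _ = 2 * (d i : ℤ) := by rw [this]; ring

theorem kostant_stable (hn : 2 ≤ n) (M : Fin n → ℤ) (hM : IsDominantWeight2 M) (D : ℕ) :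
    ∃ t₀ : ℕ, ∀ t : ℕ, t₀ ≤ t → ∀ d : Fin n → ℕ, ∑ i, d i ≤ D →
      altWD (fun y => (kostantD (y - ((M + t • rho2 n - 2 • degVec d) + rho2 n)) : ℤ))
        (M + t • rho2 n + rho2 n) = (kostantD (2 • degVec d) : ℤ) := by
  refine ⟨4 * D, fun t ht d hd => ?_⟩
  rw [altWD_eq_single]
  · congr 2
    abel
  · intro σ s hs hne
    by_contra hk
    have hk' : kostantD (signedPermAct σ s (M + t • rho2 n + rho2 n) -
        ((M + t • rho2 n - 2 • degVec d) + rho2 n)) ≠ 0 := by
      intro h0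
      apply hk
      rw [h0]
      rfl
    have hdom : DomZ2 (rho2 n) := fun i j hij => (rho2_reg i j hij).le
    have hq := kostant_ne_zero _ hk'
    have h1 := qplus_pair_nonneg _ hq (rho2 n) hdom
    have h2 := qplus_pair_nonneg _ (dom_sub_mem M hM σ s hs) (rho2 n) hdom
    have h3 : rho2 n - signedPermAct σ s (rho2 n) ≠ 0 := fun h =>
      hne (spa_stab _ rho2_reg σ s hs (sub_eq_zero.1 h).symm)
    have h4 := qplus_pair_pos _ (dom_sub_mem _ rho2_dominant σ s hs) h3 (rho2 n) rho2_reg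
    have h5 : signedPermAct σ s (M + t • rho2 n + rho2 n) =
        signedPermAct σ s M + ((t : ℤ) + 1) • signedPermAct σ s (rho2 n) := by
      rw [spa_add, spa_add, ← natCast_zsmul, spa_smul]
      module
    have e : ∑ i, (signedPermAct σ s (M + t • rho2 n + rho2 n) -
        ((M + t • rho2 n - 2 • degVec d) + rho2 n)) i * rho2 n i =
        - ∑ i, (M - signedPermAct σ s M) i * rho2 n i
          - ((t : ℤ) + 1) * ∑ i, (rho2 n - signedPermAct σ s (rho2 n)) i * rho2 n i
          + 2 * ∑ i, degVec d i * rho2 n i := by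
      rw [h5]
      simp only [Finset.mul_sum, ← Finset.sum_neg_distrib, ← Finset.sum_sub_distrib,
        ← Finset.sum_add_distrib]
      refine Finset.sum_congr rfl fun i _ => ?_
      simp only [Pi.add_apply, Pi.sub_apply, Pi.smul_apply, smul_eq_mul]
      simp only [nsmul_eq_mul]
      push_cast
      ring
    rw [e, ksa_degVec_rho hn] at h1
    have h6 : (t : ℤ) + 1 ≤
        ((t : ℤ) + 1) * ∑ i, (rho2 n - signedPermAct σ s (rho2 n)) i * rho2 n i :=
      le_mul_of_one_le_right (by positivity) h4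
    have hd' : (∑ i, (d i : ℤ)) ≤ D := by exact_mod_cast hd
    have ht' : (4 * D : ℤ) ≤ t := by exact_mod_cast ht
    linarith

/-! ## Part B -/

theorem mult_stable (hn : 2 ≤ n) (M : Fin n → ℤ) (hM : IsDominantWeight2 M) (D : ℕ) :
    ∃ t₀ : ℕ, ∀ t : ℕ, t₀ ≤ t → ∀ (ι : Type) [Fintype ι] [DecidableEq ι] (R : StarRep Ty.D n ι)
      (v : ι → ℂ), IsHW R v (halfV (M + t • rho2 n)) → ∀ d : Fin n → ℕ, ∑ i, d i ≤ D →
        R.mult (R.cyc v) (halfV (M + t • rho2 n) - ∑ i, (d i : ℝ) • (simpleRD hn i).vec) =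
          kostantD (2 • degVec d) := by
  obtain ⟨t₀, ht₀⟩ := kostant_stable hn M hM D
  refine ⟨t₀, fun t ht ι _ _ R v h d hd => ?_⟩
  have hL : IsDominantWeight2 (M + t • rho2 n) := (cwt_add_rho hn M hM t ⟨0, by omega⟩).1
  have h1 := weylChar_kostant _ _ (rep_wcf hn R v _ hL h) (M + t • rho2 n - 2 • degVec d)
  rw [ht₀ t ht d hd] at h1
  have h2 : R.chZ (R.cyc v) (M + t • rho2 n - 2 • degVec d) =
      (R.mult (R.cyc v) (halfV (M + t • rho2 n) - ∑ i, (d i : ℝ) • (simpleRD hn i).vec) : ℤ) := by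
    unfold StarRep.chZ
    rw [halfV_sub, halfV_degVec hn]
  rw [h2] at h1
  exact_mod_cast h1

/-- if the weight space has the maximal possible dimension, the kernel of `a ↦ a v` in degree `d` is the Serre ideal -/
theorem stable_deg (hn : 2 ≤ n) {ι : Type} [Fintype ι] [DecidableEq ι] (R : StarRep Ty.D n ι)
    (v : ι → ℂ) (lam : Vec n) (h : IsHW R v lam) (d : Fin n → ℕ)
    (hm : R.mult (R.cyc v) (lam - ∑ i, (d i : ℝ) • (simpleRD hn i).vec) = kostantD (2 • degVec d))
    (a : FA n) (ha : a ∈ degSpan d) (h0 : R.toLin.free hn a v = 0) : a ∈ serreSpan ℂ n := by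
  classical
  -- evaluation at `v`
  set ev : FA n →ₗ[ℂ] (ι → ℂ) := (LinearMap.applyₗ v) ∘ₗ (R.toLin.free hn).toLinearMap with hev
  have hevA : ∀ a, ev a = R.toLin.free hn a v := fun a => rfl
  set U : Submodule ℂ (FA n) :=
    Submodule.span ℂ (Set.range fun s : KP n d => pbwMon ℂ n s.1) with hU
  have hUfin : Module.Finite ℂ U := Module.Finite.span_of_finite ℂ (Set.finite_range _)
  have hUcard : Module.finrank ℂ U ≤ Fintype.card (KP n d) :=
    finrank_range_le_card (R := ℂ) fun s : KP n d => pbwMon ℂ n s.1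
  -- words
  have hdeg : degSpan d ≤ U ⊔ serreSpan ℂ n := by
    unfold degSpan
    rw [Submodule.span_le]
    rintro x ⟨w, hw, rfl⟩
    have hw' : (fun i => w.count i) = d := funext hw
    have := k2c_span ℂ n (isUnit_iff_ne_zero.2 two_ne_zero) hn w
    rw [hw'] at this
    exact this
  have hserre : ∀ s ∈ serreSpan ℂ n, ev s = 0 := by
    intro s hs
    rw [hevA, free_serreSpan hn R s hs]
    rfl
  -- the weight space is in the image of `U`
  have hW : (R.cyc v ⊓ R.wt (lam - ∑ i, (d i : ℝ) • (simpleRD hn i).vec) : Submodule ℂ (ι → ℂ)) ≤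
      U.map ev := by
    intro x hx
    obtain ⟨a, ha, rfl⟩ := wt_words hn R v lam h d x hx
    obtain ⟨u, hu, s, hs, rfl⟩ := Submodule.mem_sup.1 (hdeg ha)
    refine ⟨u, hu, ?_⟩
    rw [← hevA, map_add, hserre s hs, add_zero]
  have h1 : kostantD (2 • degVec d) ≤ Module.finrank ℂ (U.map ev) := by
    rw [← hm]
    exact Submodule.finrank_mono hW
  have h2 := LinearMap.finrank_range_add_finrank_ker (ev.domRestrict U)
  rw [LinearMap.range_domRestrict] at h2
  have h3 := kp_card_le hn d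
  have h4 : Module.finrank ℂ (LinearMap.ker (ev.domRestrict U)) = 0 := by omega
  have h5 : LinearMap.ker (ev.domRestrict U) = ⊥ := Submodule.finrank_eq_zero.1 h4
  obtain ⟨u, hu, s, hs, rfl⟩ := Submodule.mem_sup.1 (hdeg ha)
  have h6 : ev u = 0 := by
    have := h0
    rw [← hevA, map_add, hserre s hs, add_zero] at this
    exact this
  have h7 : (⟨u, hu⟩ : U) ∈ LinearMap.ker (ev.domRestrict U) := by
    rw [LinearMap.mem_ker]
    exact h6
  rw [h5, Submodule.mem_bot] at h7
  have h8 : u = 0 := congrArg Subtype.val h7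
  rw [h8, zero_add]
  exact hs

/-- **stable range**: for `t ≥ t₀(D)` the annihilator of `v_(M + tρ)` in length `≤ D` is the Serre ideal -/
theorem stable_faithful (hn : 2 ≤ n) (M : Fin n → ℤ) (hM : IsDominantWeight2 M) (D : ℕ) :
    ∃ t₀ : ℕ, ∀ t : ℕ, t₀ ≤ t → ∀ (ι : Type) [Fintype ι] [DecidableEq ι] (R : StarRep Ty.D n ι)
      (v : ι → ℂ), IsHW R v (halfV (M + t • rho2 n)) → ∀ a ∈ lenSpan n D,
        R.toLin.free hn a v = 0 → a ∈ serreSpan ℂ n := by
  obtain ⟨t₀, ht₀⟩ := mult_stable hn M hM D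
  refine ⟨t₀, fun t ht ι _ _ R v h a ha h0 => ?_⟩
  have hv : v ∈ R.wt (halfV (M + t • rho2 n)) := by
    rw [mem_wt]
    intro x
    exact h.wt x
  obtain ⟨F, hF⟩ := sum_degPart a
  rw [hF]
  refine Submodule.sum_mem _ fun d _ => ?_
  by_cases hd : ∑ i, d i ≤ D
  · exact stable_deg hn R v _ h d (ht₀ t ht ι R v h d hd) _ (degPart_mem d a)
      (free_degPart_zero hn R v _ hv a h0 d)
  · rw [(degPart_lenSpan D d a ha).2 (not_le.1 hd)]
    exact Submodule.zero_mem _

end Claimed.Agent.R282
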